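import Mathlib
import Vale.Agent.P116.H906.Loc
import Vale.Agent.P116.H906.Fin2

/-!
Good nodes.
-/

open Set Filter Topology Metric Bornology

namespace Vale.Agent.P116.PBC

open H906

/-- restriction of a family of sets to the members inside `Q` -/
def rs (Q : Set ℂ) (S : Set (Set ℂ)) : Set (Set ℂ) := {P | P ∈ S ∧ P ⊆ Q}

/-- pieces: nondegenerate components of `K`, or nodes -/
def Pc (K P : Set ℂ) : Prop := (P ∈ comps K ∧ P.Nontrivial) ∨ ∃ n, ∃ x ∈ K, P = nd K n x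

/-- finite families of disjoint pieces inside `Q` -/
structure NS (K Q : Set ℂ) (S : Set (Set ℂ)) : Prop where
  fin : S.Finite
  pc : ∀ P ∈ S, Pc K P
  disj : ∀ P ∈ S, ∀ P' ∈ S, P ≠ P' → Disjoint P P'
  sub : ∀ P ∈ S, P ⊆ Q

/-- `F` is a good ultrafilter of structures inside `Q` -/
structure GoodF (K Q : Set ℂ) (F : Ultrafilter (Set (Set ℂ))) : Prop where
  ns : ∀ᶠ S in (F : Filter (Set (Set ℂ))), NS K Q S
  fine : ∀ n, ∀ᶠ S in (F : Filter (Set (Set ℂ))), ∀ P ∈ S, P ⊆ lev K n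
  good : ∀ 𝔊 : Ultrafilter Str, Fine K (𝔊 : Filter Str) → 𝔊.map (fun S => rs Q S.1) = F →
    ∀ g : ℂ → ℂ, TendstoLocallyUniformlyOn (kF fk) g (𝔊 : Filter Str) Kᶜ →
      ∀ x ∈ K, x ∈ Q → GoodAt fk K (𝔊 : Filter Str) x

/-- good nodes -/
def GoodN (K Q : Set ℂ) : Prop := ∃ F, GoodF K Q F

lemma rs_rs {Q R : Set ℂ} (h : R ⊆ Q) (S : Set (Set ℂ)) : rs R (rs Q S) = rs R S := by
  ext P
  constructor
  · rintro ⟨⟨h1, -⟩, h2⟩
    exact ⟨h1, h2⟩
  · rintro ⟨h1, h2⟩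
    exact ⟨⟨h1, h2.trans h⟩, h2⟩

lemma nontrivial_nd {K : Set ℂ} {n : ℕ} {x : ℂ} (hx : x ∈ K) : (nd K n x).Nontrivial := by
  have h1 := closedBall_subset_nd hx (mem_nd hx n)
  refine ⟨x, mem_nd hx n, x + lr n, h1 ?_, ?_⟩
  · rw [mem_closedBall, dist_eq_norm, add_sub_cancel_left, Complex.norm_real,
      Real.norm_of_nonneg (lr_pos n).le]
  · intro h
    have h2 : ((lr n : ℝ) : ℂ) = 0 := by linear_combination -h
    exact (lr_pos n).ne' (by exact_mod_cast h2)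

/-- any family of ultrafilters has a coupling -/
lemma exists_coupling {ι α : Type*} [Nonempty α] (F : ι → Ultrafilter α) :
    ∃ 𝓗 : Ultrafilter (ι → α), ∀ i, 𝓗.map (fun H => H i) = F i := by
  have hne : (Filter.pi fun i => (F i : Filter α)).NeBot := inferInstance
  obtain ⟨𝓗, h𝓗⟩ := Ultrafilter.exists_le (Filter.pi fun i => (F i : Filter α))
  refine ⟨𝓗, fun i => ?_⟩
  apply Ultrafilter.coe_le_coe.1
  rw [Ultrafilter.coe_map]
  exact (Filter.tendsto_eval_pi (fun i => (F i : Filter α)) i).mono_left h𝓗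

end Vale.Agent.P116.PBC
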