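import Mathlib
import Vale.Agent.P116.PBC.Def

/-!
If all nodes of level `0` are good, then there is a good ultrafilter of structures.
-/

open Set Filter Topology Metric Bornology

namespace Vale.Agent.P116.PBC

open H906

variable {K : Set ℂ}

/-- finite disjoint families of pieces are full -/
def FullN (K : Set ℂ) : Prop := ∀ S : Set (Set ℂ), S.Finite → (∀ P ∈ S, Pc K P) →
  (∀ P ∈ S, ∀ P' ∈ S, P ≠ P' → Disjoint P P') → Full (⋃₀ S)

lemma Pc.compact (hK : IsCompact K) {P : Set ℂ} (h : Pc K P) : IsCompact P := by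
  rcases h with ⟨h, -⟩ | ⟨n, x, -, rfl⟩
  · exact comps_isCompact hK h
  · exact isCompact_nd hK n x

lemma Pc.nontriv {P : Set ℂ} (h : Pc K P) : P.Nontrivial := by
  rcases h with ⟨-, h⟩ | ⟨n, x, hx, rfl⟩
  · exact h
  · exact nontrivial_nd hx

lemma Pc.conn {P : Set ℂ} (h : Pc K P) : IsConnected P := by
  refine ⟨h.nontriv.nonempty, ?_⟩
  rcases h with ⟨h, -⟩ | ⟨n, x, -, rfl⟩
  · exact comps_isPreconnected h
  · exact isPreconnected_nd n x

/-- finite disjoint families of pieces are admissible -/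
lemma adm_of_pc (hK : IsCompact K) (hN : FullN K) {S : Set (Set ℂ)} (hfin : S.Finite)
    (hpc : ∀ P ∈ S, Pc K P) (hd : ∀ P ∈ S, ∀ P' ∈ S, P ≠ P' → Disjoint P P') : Adm S where
  fin := hfin
  cpt P hP := (hpc P hP).compact hK
  conn P hP := (hpc P hP).conn
  nontriv P hP := (hpc P hP).nontriv
  disj := hd
  full := hN S hfin hpc hd

lemma adm_empty : Adm (∅ : Set (Set ℂ)) where
  fin := finite_empty
  cpt P hP := hP.elim
  conn P hP := hP.elim
  nontriv P hP := hP.elim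
  disj P hP := hP.elim
  full := by
    rw [sUnion_empty]
    refine full_of_isPreconnected_compl ?_ isBounded_empty
    rw [compl_empty]
    exact isPreconnected_univ

lemma nodes_disj {n : ℕ} {R R' : Set ℂ} (h : R ∈ nodes K n) (h' : R' ∈ nodes K n)
    (hne : (R ∩ R').Nonempty) : R = R' := by
  obtain ⟨x, -, rfl⟩ := h
  obtain ⟨y, -, rfl⟩ := h'
  obtain ⟨z, hz, hz'⟩ := hne
  exact (nd_eq hz).symm.trans (nd_eq hz')

/-- union of a family of structures over the nodes of level `n` -/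
def Un (K : Set ℂ) (n : ℕ) (H : Set ℂ → Set (Set ℂ)) : Set (Set ℂ) := ⋃ R ∈ nodes K n, H R

lemma mem_Un {n : ℕ} {H : Set ℂ → Set (Set ℂ)} {P : Set ℂ} :
    P ∈ Un K n H ↔ ∃ R ∈ nodes K n, P ∈ H R := by
  rw [Un, mem_iUnion₂]
  constructor
  · rintro ⟨R, h1, h2⟩; exact ⟨R, h1, h2⟩
  · rintro ⟨R, h1, h2⟩; exact ⟨R, h1, h2⟩

lemma Un_fin (hK : IsCompact K) {n : ℕ} {H : Set ℂ → Set (Set ℂ)}
    (h : ∀ R ∈ nodes K n, NS K R (H R)) : (Un K n H).Finite :=
  (finite_nodes hK n).biUnion fun R hR => (h R hR).fin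

lemma Un_pc {n : ℕ} {H : Set ℂ → Set (Set ℂ)}
    (h : ∀ R ∈ nodes K n, NS K R (H R)) : ∀ P ∈ Un K n H, Pc K P := by
  intro P hP
  obtain ⟨R, hR, hPR⟩ := mem_Un.1 hP
  exact (h R hR).pc P hPR

lemma Un_disj {n : ℕ} {H : Set ℂ → Set (Set ℂ)}
    (h : ∀ R ∈ nodes K n, NS K R (H R)) :
    ∀ P ∈ Un K n H, ∀ P' ∈ Un K n H, P ≠ P' → Disjoint P P' := by
  intro P hP P' hP' hne
  obtain ⟨R, hR, hPR⟩ := mem_Un.1 hP
  obtain ⟨R', hR', hPR'⟩ := mem_Un.1 hP'
  by_cases hRR : R = R'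
  · subst hRR
    exact (h R hR).disj P hPR P' hPR' hne
  · rw [disjoint_left]
    intro z hz hz'
    exact hRR (nodes_disj hR hR' ⟨z, (h R hR).sub P hPR hz, (h R' hR').sub P' hPR' hz'⟩)

lemma rs_Un {n : ℕ} {H : Set ℂ → Set (Set ℂ)} (h : ∀ R ∈ nodes K n, NS K R (H R))
    {R : Set ℂ} (hR : R ∈ nodes K n) : rs R (Un K n H) = H R := by
  ext P
  constructor
  · rintro ⟨hP, hPR⟩
    obtain ⟨R', hR', hPR'⟩ := mem_Un.1 hP
    obtain ⟨z, hz⟩ := ((h R' hR').pc P hPR').conn.nonempty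
    have : R = R' := nodes_disj hR hR' ⟨z, hPR hz, (h R' hR').sub P hPR' hz⟩
    rwa [this]
  · intro hP
    exact ⟨mem_Un.2 ⟨R, hR, hP⟩, (h R hR).sub P hP⟩

theorem final (hK : IsCompact K) (hN : FullN K)
    (h : ∀ x ∈ K, GoodN K (nd K 0 x)) :
    ∃ 𝔊 : Ultrafilter Str, Fine K (𝔊 : Filter Str) ∧
      ∀ g, TendstoLocallyUniformlyOn (kF fk) g (𝔊 : Filter Str) Kᶜ →
        ∀ x ∈ K, GoodAt fk K (𝔊 : Filter Str) x := by
  classical
  have h1 : ∀ R : Set ℂ, ∃ F : Ultrafilter (Set (Set ℂ)), R ∈ nodes K 0 → GoodF K R F := by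
    intro R
    by_cases hR : R ∈ nodes K 0
    · obtain ⟨x, hx, rfl⟩ := hR
      obtain ⟨F, hF⟩ := h x hx
      exact ⟨F, fun _ => hF⟩
    · exact ⟨pure ∅, fun h => (hR h).elim⟩
  choose F hF using h1
  obtain ⟨𝓗, h𝓗⟩ := exists_coupling F
  have hev : ∀ {p : Set ℂ → Set (Set ℂ) → Prop},
      (∀ R ∈ nodes K 0, ∀ᶠ S in (F R : Filter (Set (Set ℂ))), p R S) →
      ∀ᶠ H in (𝓗 : Filter (Set ℂ → Set (Set ℂ))), ∀ R ∈ nodes K 0, p R (H R) := by
    intro p hp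
    rw [eventually_all_finite (finite_nodes hK 0)]
    intro R hR
    have h2 := hp R hR
    rw [← h𝓗 R, Ultrafilter.coe_map, eventually_map] at h2
    exact h2
  have hNS : ∀ᶠ H in (𝓗 : Filter (Set ℂ → Set (Set ℂ))), ∀ R ∈ nodes K 0, NS K R (H R) :=
    hev (p := fun R S => NS K R S) fun R hR => (hF R hR).ns
  set toS : (Set ℂ → Set (Set ℂ)) → Str := fun H =>
    if hA : Adm (Un K 0 H) then ⟨Un K 0 H, hA⟩ else ⟨∅, adm_empty⟩ with htoS
  have htoS' : ∀ H : Set ℂ → Set (Set ℂ), (∀ R ∈ nodes K 0, NS K R (H R)) →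
      (toS H).1 = Un K 0 H := by
    intro H hH
    have hA : Adm (Un K 0 H) := adm_of_pc hK hN (Un_fin hK hH) (Un_pc hH) (Un_disj hH)
    simp only [htoS, dif_pos hA]
  refine ⟨𝓗.map toS, ?_, ?_⟩
  · intro n
    rw [Ultrafilter.coe_map, eventually_map]
    have h2 := hev (p := fun R S => ∀ P ∈ S, P ⊆ lev K n) fun R hR => (hF R hR).fine n
    filter_upwards [hNS, h2] with H h3 h4 P hP
    rw [htoS' H h3] at hP
    obtain ⟨R, hR, hPR⟩ := mem_Un.1 hP
    exact h4 R hR P hPR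
  · intro g hg x hx
    have hR : nd K 0 x ∈ nodes K 0 := ⟨x, hx, rfl⟩
    have hfine : Fine K ((𝓗.map toS : Ultrafilter Str) : Filter Str) := by
      intro n
      rw [Ultrafilter.coe_map, eventually_map]
      have h2 := hev (p := fun R S => ∀ P ∈ S, P ⊆ lev K n) fun R hR => (hF R hR).fine n
      filter_upwards [hNS, h2] with H h3 h4 P hP
      rw [htoS' H h3] at hP
      obtain ⟨R, hR, hPR⟩ := mem_Un.1 hP
      exact h4 R hR P hPR
    refine (hF _ hR).good (𝓗.map toS) hfine ?_ g hg x hx (mem_nd hx 0)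
    rw [← h𝓗 (nd K 0 x), Ultrafilter.map_map]
    apply Ultrafilter.coe_inj.1
    rw [Ultrafilter.coe_map, Ultrafilter.coe_map]
    refine Filter.map_congr ?_
    filter_upwards [hNS] with H h3
    simp only [Function.comp]
    rw [htoS' H h3, rs_Un h3 hR]

end Vale.Agent.P116.PBC
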