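import Vale.Agent.P116.H906.Sel
import Vale.Agent.P153.R2.TOP.Sep

/-!
P116, block N: finitely many pairwise disjoint nodes and components of `K` together do not separate
the plane (Janiszewski's theorem).
-/

open Set Filter Topology Metric Bornology

namespace Vale.Agent.P116.PBC

open H906

/-- the union of two disjoint compact sets which do not separate the plane does not separate it -/
lemma full_union {A B : Set ℂ} (hA : IsCompact A) (hB : IsCompact B) (hAf : Full A) (hBf : Full B)
    (hd : Disjoint A B) : Full (A ∪ B) := by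
  intro z hz
  obtain ⟨R, hR⟩ := (hA.union hB).isBounded.subset_closedBall (0 : ℂ)
  obtain ⟨w, hw, -⟩ := inter_compl_ball_nonempty
    (not_isBounded_compl_closedBall (0 : ℂ) (max R 0)) 0 0
  have hAB : A ∪ B ⊆ closedBall (0 : ℂ) (max R 0) :=
    hR.trans (closedBall_subset_closedBall (le_max_left _ _))
  have hwAB : w ∉ A ∪ B := fun h => hw (hAB h)
  have join : ∀ {C : Set ℂ}, IsCompact C → Full C → z ∉ C → w ∉ C → JoinedIn Cᶜ z w := by
    intro C hC hCf hzC hwC
    have h1 : IsPathConnected Cᶜ := by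
      rw [← (hC.isClosed.isOpen_compl).isConnected_iff_isPathConnected]
      exact ⟨⟨z, hzC⟩, hCf.isPreconnected_compl hC.isBounded⟩
    exact h1.joinedIn z hzC w hwC
  have h1 : JoinedIn (A ∪ B)ᶜ z w := by
    refine P153.TOP.janiszewski hA hB ?_ (join hA hAf (fun h => hz (Or.inl h))
      (fun h => hwAB (Or.inl h))) (join hB hBf (fun h => hz (Or.inr h)) (fun h => hwAB (Or.inr h)))
    rw [hd.inter_eq]
    exact isPreconnected_empty
  obtain ⟨γ, hγ⟩ := h1
  refine ⟨range γ ∪ (closedBall (0 : ℂ) (max R 0))ᶜ, ?_, Or.inl ⟨0, γ.source⟩, ?_, ?_⟩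
  · exact IsPreconnected.union w ⟨1, γ.target⟩ hw (isPreconnected_range γ.continuous)
      (isPreconnected_compl_closedBall 0 (le_max_right _ _))
  · refine Disjoint.union_left ?_ (disjoint_compl_left.mono_right hAB)
    rw [disjoint_left]
    rintro _ ⟨t, rfl⟩ h
    exact hγ t h
  · exact fun h => not_isBounded_compl_closedBall (0 : ℂ) (max R 0) (h.subset subset_union_right)

/-- a component of a compact full set is full -/
lemma full_comp {A : Set ℂ} (hA : IsCompact A) (hf : Full A) (x : ℂ) :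
    Full (connectedComponentIn A x) := by
  refine full_of_saturated hA.isClosed hf (isCompact_comp hA x).isClosed
    (connectedComponentIn_subset _ _) fun y hy => ?_
  rw [← connectedComponentIn_eq hy]

lemma full_nd {K : Set ℂ} (hK : IsCompact K) (n : ℕ) (x : ℂ) : Full (nd K n x) :=
  full_comp (isCompact_lev hK n) (full_lev n) x

/-- **block N** -/
theorem full_nodes {K : Set ℂ} (hK : IsCompact K) (hf : H906.Full K) {T : Set (Set ℂ)}
    (hT : T.Finite) (h : ∀ P ∈ T, P ∈ H906.comps K ∨ ∃ n, ∃ x ∈ K, P = H906.nd K n x)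
    (hd : ∀ P ∈ T, ∀ Q ∈ T, P ≠ Q → Disjoint P Q) : H906.Full (⋃₀ T) := by
  have hc : ∀ P ∈ T, IsCompact P ∧ Full P := by
    intro P hP
    rcases h P hP with ⟨x, -, rfl⟩ | ⟨n, x, -, rfl⟩
    · exact ⟨isCompact_comp hK x, full_comp hK hf x⟩
    · exact ⟨isCompact_nd hK n x, full_nd hK n x⟩
  clear h
  suffices H : ∀ T : Set (Set ℂ), T.Finite → (∀ P ∈ T, IsCompact P ∧ Full P) →
      (∀ P ∈ T, ∀ Q ∈ T, P ≠ Q → Disjoint P Q) → IsCompact (⋃₀ T) ∧ Full (⋃₀ T) from
    (H T hT hc hd).2
  intro T hT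
  induction T, hT using Set.Finite.induction_on with
  | empty =>
    intro _ _
    rw [sUnion_empty]
    refine ⟨isCompact_empty, fun z _ => ?_⟩
    exact ⟨univ, isPreconnected_univ, mem_univ _, disjoint_empty _,
      NormedSpace.unbounded_univ ℝ ℂ⟩
  | @insert P T hPT _ ih =>
    intro hc hd
    obtain ⟨h1, h2⟩ := ih (fun Q hQ => hc Q (mem_insert_of_mem _ hQ))
      (fun Q hQ Q' hQ' => hd Q (mem_insert_of_mem _ hQ) Q' (mem_insert_of_mem _ hQ'))
    obtain ⟨h3, h4⟩ := hc P (mem_insert _ _)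
    rw [sUnion_insert]
    refine ⟨h3.union h1, full_union h3 h1 h4 h2 ?_⟩
    rw [disjoint_sUnion_right]
    intro Q hQ
    exact hd P (mem_insert _ _) Q (mem_insert_of_mem _ hQ) (fun h => hPT (h ▸ hQ))

end Vale.Agent.P116.PBC
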