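import Vale.Agent.P116.PBC.Def

/-!
P116, block ANN: disjoint annuli around `w₀` such that each disk of the structure away from `g`
meets at most one of them.
-/

open Set Filter Topology Metric Bornology

namespace Vale.Agent.P116.PBC

open H906

/-- the radii -/
noncomputable def annR (ρ : ℝ → ℝ) (δ₀ : ℝ) : ℕ → ℝ
  | 0 => δ₀ / 2
  | k + 1 => min (ρ (annR ρ δ₀ k / 8) / 2) (annR ρ δ₀ k / 8)

theorem choose_annuli {K : Set ℂ} {𝔊 : Ultrafilter H906.Str} {g w₀ : ℂ}
    (hSD : ∀ η > 0, ∃ ρ > 0, ∀ s₀, ∀ᶠ S in (𝔊 : Filter Str), ∀ P ∈ S.1, Disjoint P (nd K s₀ g) →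
      η ≤ kr fk S P → Disjoint (closedBall (kc fk S P) (kr fk S P)) (ball w₀ ρ))
    {δ₀ : ℝ} (hδ₀ : 0 < δ₀) (m : ℕ) :
    ∃ r : ℕ → ℝ, (∀ k, 0 < r k ∧ 2 * r k ≤ δ₀) ∧
      (∀ k l, k ≠ l → Disjoint (ann w₀ (r k)) (ann w₀ (r l))) ∧
      ∀ s₀, ∀ᶠ S in (𝔊 : Filter Str), ∀ P ∈ S.1, Disjoint P (nd K s₀ g) →
        ∀ k < m, ∀ l < m, (closedBall (kc fk S P) (kr fk S P) ∩ ann w₀ (r k)).Nonempty →
          (closedBall (kc fk S P) (kr fk S P) ∩ ann w₀ (r l)).Nonempty → k = l := by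
  have hSD' : ∀ η : ℝ, ∃ ρ : ℝ, 0 < ρ ∧ (0 < η → ∀ s₀, ∀ᶠ S in (𝔊 : Filter Str), ∀ P ∈ S.1,
      Disjoint P (nd K s₀ g) → η ≤ kr fk S P →
        Disjoint (closedBall (kc fk S P) (kr fk S P)) (ball w₀ ρ)) := by
    intro η
    by_cases hη : 0 < η
    · obtain ⟨ρ, h1, h2⟩ := hSD η hη
      exact ⟨ρ, h1, fun _ => h2⟩
    · exact ⟨1, one_pos, fun h => absurd h hη⟩
  choose ρ hρ hρ2 using hSD'
  set r : ℕ → ℝ := annR ρ δ₀ with hr
  have hpos : ∀ k, 0 < r k := by
    intro k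
    induction k with
    | zero => exact half_pos hδ₀
    | succ k ih => exact lt_min (half_pos (hρ _)) (by positivity)
  have hs1 : ∀ k, r (k + 1) ≤ r k / 8 := fun k => min_le_right _ _
  have hs2 : ∀ k, 2 * r (k + 1) ≤ ρ (r k / 8) := by
    intro k
    have : r (k + 1) ≤ ρ (r k / 8) / 2 := min_le_left _ _
    linarith
  have hanti : Antitone r := antitone_nat_of_succ_le fun k => by
    linarith [hs1 k, hpos k]
  have hlt : ∀ k l, k < l → 2 * r l ≤ r k / 4 := by
    intro k l h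
    have h1 := hanti (show k + 1 ≤ l from h)
    linarith [hs1 k]
  have hdis : ∀ k l, k < l → Disjoint (ann w₀ (r k)) (ann w₀ (r l)) := by
    intro k l h
    rw [disjoint_left]
    intro z hz hz'
    have h1 : r k < dist z w₀ := hz.1
    have h2 : dist z w₀ < 2 * r l := hz'.2
    linarith [hlt k l h, hpos k]
  refine ⟨r, fun k => ⟨hpos k, ?_⟩, ?_, ?_⟩
  · have h1 : r k ≤ r 0 := hanti (Nat.zero_le k)
    have h2 : r 0 = δ₀ / 2 := rfl
    linarith
  · intro k l h
    rcases lt_or_gt_of_ne h with h | h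
    · exact hdis k l h
    · exact (hdis l k h).symm
  · intro s₀
    have hall : ∀ᶠ S in (𝔊 : Filter Str), ∀ k ∈ Finset.range m, ∀ P ∈ S.1,
        Disjoint P (nd K s₀ g) → r k / 8 ≤ kr fk S P →
          Disjoint (closedBall (kc fk S P) (kr fk S P)) (ball w₀ (ρ (r k / 8))) :=
      (Filter.eventually_all_finset _).2 fun k _ => hρ2 (r k / 8) (by have := hpos k; positivity) s₀
    filter_upwards [hall] with S hS P hP hd
    have key : ∀ k < m, ∀ l, k < l →
        (closedBall (kc fk S P) (kr fk S P) ∩ ann w₀ (r k)).Nonempty →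
        (closedBall (kc fk S P) (kr fk S P) ∩ ann w₀ (r l)).Nonempty → False := by
      rintro k hk l hkl ⟨x, hx, hx1, -⟩ ⟨y, hy, -, hy2⟩
      have h1 : dist y w₀ < ρ (r k / 8) := by
        have := hanti (show k + 1 ≤ l from hkl)
        linarith [hs2 k]
      have h2 : kr fk S P < r k / 8 := by
        by_contra hcon
        exact disjoint_left.1 (hS k (Finset.mem_range.2 hk) P hP hd (not_lt.1 hcon)) hy h1
      have h3 : dist x y ≤ 2 * kr fk S P := by
        rw [mem_closedBall] at hx hy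
        have := dist_triangle_right x y (kc fk S P)
        linarith
      have h4 := dist_triangle x y w₀
      linarith [hlt k l hkl, hpos k]
    intro k hk l hl h1 h2
    rcases lt_trichotomy k l with h | h | h
    · exact (key k hk l h h1 h2).elim
    · exact h
    · exact (key l hl k h h2 h1).elim

end Vale.Agent.P116.PBC
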