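import Mathlib
import Vale.Agent.P116.PBC.Def
import Vale.Agent.P116.PBC.Final

/-!
Siblings of the nodes of a point, and the structures built from them.
-/

open Set Filter Topology Metric Bornology

namespace Vale.Agent.P116.PBC

open H906

variable {K : Set ℂ} {g : ℂ} {n₀ m : ℕ}

/-- siblings of the nodes of `g` -/
def Sibs (K : Set ℂ) (g : ℂ) (n₀ m : ℕ) : Set (Set ℂ) :=
  {R | ∃ l, n₀ ≤ l ∧ l < m ∧ ∃ y ∈ K, y ∈ nd K l g ∧ g ∉ nd K (l + 1) y ∧ R = nd K (l + 1) y}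

/-- the structure given by the node of `g` at level `m` and by structures in the siblings -/
def Sm (K : Set ℂ) (g : ℂ) (n₀ m : ℕ) (H : Set ℂ → Set (Set ℂ)) : Set (Set ℂ) :=
  insert (nd K m g) (⋃ R ∈ Sibs K g n₀ m, H R)

lemma mem_Sm {H : Set ℂ → Set (Set ℂ)} {P : Set ℂ} :
    P ∈ Sm K g n₀ m H ↔ P = nd K m g ∨ ∃ R ∈ Sibs K g n₀ m, P ∈ H R := by
  rw [Sm, mem_insert_iff, mem_iUnion₂]
  constructor
  · rintro (h | ⟨R, h1, h2⟩)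
    · exact Or.inl h
    · exact Or.inr ⟨R, h1, h2⟩
  · rintro (h | ⟨R, h1, h2⟩)
    · exact Or.inl h
    · exact Or.inr ⟨R, h1, h2⟩

lemma finite_Sibs (hK : IsCompact K) (g : ℂ) (n₀ m : ℕ) : (Sibs K g n₀ m).Finite := by
  have h1 : (⋃ l ∈ {l : ℕ | l < m}, nodes K (l + 1)).Finite :=
    (finite_lt_nat m).biUnion fun l _ => finite_nodes hK (l + 1)
  refine h1.subset ?_
  rintro R ⟨l, -, hl, y, hy, -, -, rfl⟩
  exact mem_iUnion₂.2 ⟨l, hl, y, hy, rfl⟩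

lemma sib_sub_lev {R : Set ℂ} (hR : R ∈ Sibs K g n₀ m) : ∃ l, n₀ ≤ l ∧ l < m ∧ R ⊆ nd K l g ∧
    ∃ y ∈ K, y ∈ nd K l g ∧ g ∉ nd K (l + 1) y ∧ R = nd K (l + 1) y := by
  obtain ⟨l, h1, h2, y, hy, hyl, hgy, rfl⟩ := hR
  refine ⟨l, h1, h2, ?_, y, hy, hyl, hgy, rfl⟩
  rw [← nd_eq hyl]
  exact nd_anti (Nat.le_succ l)

lemma sib_sub {R : Set ℂ} (hR : R ∈ Sibs K g n₀ m) : R ⊆ nd K n₀ g := by
  obtain ⟨l, h1, -, h2, -⟩ := sib_sub_lev hR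
  exact h2.trans (nd_anti h1)

lemma sib_disj_nd (hg : g ∈ K) {R : Set ℂ} (hR : R ∈ Sibs K g n₀ m) : Disjoint R (nd K m g) := by
  obtain ⟨l, h1, h2, y, hy, hyl, hgy, rfl⟩ := hR
  rw [disjoint_left]
  intro z hz hz2
  have h3 : z ∈ nd K (l + 1) g := nd_anti h2 hz2
  refine hgy ?_
  rw [← nd_eq hz, nd_eq h3]
  exact mem_nd hg _

lemma sib_eq (hg : g ∈ K) {R R' : Set ℂ} (hR : R ∈ Sibs K g n₀ m) (hR' : R' ∈ Sibs K g n₀ m)
    {z : ℂ} (hz : z ∈ R) (hz' : z ∈ R') : R = R' := by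
  obtain ⟨l, h1, h2, h3, y, hy, hyl, hgy, hRe⟩ := sib_sub_lev hR
  obtain ⟨l', h1', h2', h3', y', hy', hyl', hgy', hRe'⟩ := sib_sub_lev hR'
  rcases lt_trichotomy l l' with h | h | h
  · exfalso
    have h4 : R ∈ Sibs K g n₀ (l + 1) := ⟨l, h1, Nat.lt_succ_self l, y, hy, hyl, hgy, hRe⟩
    exact disjoint_left.1 (sib_disj_nd hg h4) hz (nd_anti h (h3' hz'))
  · subst h
    rw [hRe, hRe']
    rw [hRe] at hz
    rw [hRe'] at hz'
    exact (nd_eq hz).symm.trans (nd_eq hz')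
  · exfalso
    have h4 : R' ∈ Sibs K g n₀ (l' + 1) := ⟨l', h1', Nat.lt_succ_self l', y', hy', hyl', hgy', hRe'⟩
    exact disjoint_left.1 (sib_disj_nd hg h4) hz' (nd_anti h (h3 hz))

lemma sib_mono {m m' : ℕ} (h : m ≤ m') : Sibs K g n₀ m ⊆ Sibs K g n₀ m' := by
  rintro R ⟨l, h1, h2, h3⟩
  exact ⟨l, h1, h2.trans_le h, h3⟩

lemma sib_or {m m' : ℕ} {R : Set ℂ} (hR : R ∈ Sibs K g n₀ m') :
    R ∈ Sibs K g n₀ m ∨ R ⊆ nd K m g := by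
  obtain ⟨l, h1, h2, h3, h4⟩ := sib_sub_lev hR
  by_cases hlm : l < m
  · exact Or.inl ⟨l, h1, hlm, h4⟩
  · exact Or.inr (h3.trans (nd_anti (not_lt.1 hlm)))

lemma exists_sib (hg : g ∈ K) {x : ℂ} (hx : x ∈ K) (hxn : x ∈ nd K n₀ g) {j : ℕ}
    (hxj : x ∉ nd K j g) : ∃ l, n₀ ≤ l ∧ x ∈ nd K l g ∧ g ∉ nd K (l + 1) x := by
  classical
  have hex : ∃ j, x ∉ nd K j g := ⟨j, hxj⟩
  have h1 : x ∉ nd K (Nat.find hex) g := Nat.find_spec hex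
  have h2 : n₀ < Nat.find hex := by
    by_contra hcon
    exact h1 (nd_anti (not_lt.1 hcon) hxn)
  obtain ⟨l, hl⟩ : ∃ l, Nat.find hex = l + 1 := ⟨Nat.find hex - 1, by omega⟩
  refine ⟨l, by omega, ?_, ?_⟩
  · by_contra hcon
    exact Nat.find_min hex (m := l) (by omega) hcon
  · intro hgx
    rw [hl] at h1
    refine h1 ?_
    rw [nd_eq hgx]
    exact mem_nd hx _

lemma Sm_sub {H : Set ℂ → Set (Set ℂ)} (hnm : n₀ ≤ m) (hH : ∀ R ∈ Sibs K g n₀ m, NS K R (H R)) :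
    ∀ P ∈ Sm K g n₀ m H, P ⊆ nd K n₀ g := by
  intro P hP
  rcases mem_Sm.1 hP with rfl | ⟨R, hR, hPR⟩
  · exact nd_anti hnm
  · exact ((hH R hR).sub P hPR).trans (sib_sub hR)

lemma NS_Sm (hK : IsCompact K) (hg : g ∈ K) {H : Set ℂ → Set (Set ℂ)} (hnm : n₀ ≤ m)
    (hH : ∀ R ∈ Sibs K g n₀ m, NS K R (H R)) : NS K (nd K n₀ g) (Sm K g n₀ m H) where
  fin := ((finite_Sibs hK g n₀ m).biUnion fun R hR => (hH R hR).fin).insert _
  pc P hP := by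
    rcases mem_Sm.1 hP with rfl | ⟨R, hR, hPR⟩
    · exact Or.inr ⟨m, g, hg, rfl⟩
    · exact (hH R hR).pc P hPR
  disj P hP P' hP' hne := by
    rcases mem_Sm.1 hP with hPe | ⟨R, hR, hPR⟩
    · rcases mem_Sm.1 hP' with hPe' | ⟨R', hR', hPR'⟩
      · exact absurd (hPe.trans hPe'.symm) hne
      · rw [hPe]
        exact ((sib_disj_nd hg hR').mono_left ((hH R' hR').sub P' hPR')).symm
    · rcases mem_Sm.1 hP' with hPe' | ⟨R', hR', hPR'⟩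
      · rw [hPe']
        exact (sib_disj_nd hg hR).mono_left ((hH R hR).sub P hPR)
      · by_cases hRR : R = R'
        · subst hRR
          exact (hH R hR).disj P hPR P' hPR' hne
        · rw [disjoint_left]
          intro z hz hz'
          exact hRR (sib_eq hg hR hR' ((hH R hR).sub P hPR hz) ((hH R' hR').sub P' hPR' hz'))
  sub := Sm_sub hnm hH

lemma rs_Sm (hg : g ∈ K) {H : Set ℂ → Set (Set ℂ)}
    (hH : ∀ R ∈ Sibs K g n₀ m, NS K R (H R)) {R : Set ℂ} (hR : R ∈ Sibs K g n₀ m) :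
    rs R (Sm K g n₀ m H) = H R := by
  ext P
  constructor
  · rintro ⟨hP, hPR⟩
    rcases mem_Sm.1 hP with rfl | ⟨R', hR', hPR'⟩
    · exact absurd (mem_nd hg m) (disjoint_left.1 (sib_disj_nd hg hR) (hPR (mem_nd hg m)))
    · obtain ⟨z, hz⟩ := ((hH R' hR').pc P hPR').conn.nonempty
      rwa [sib_eq hg hR hR' (hPR hz) ((hH R' hR').sub P hPR' hz)]
  · intro hP
    exact ⟨mem_Sm.2 (Or.inr ⟨R, hR, hP⟩), (hH R hR).sub P hP⟩

end Vale.Agent.P116.PBC
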