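import Mathlib
import Vale.Agent.P116.PBC.Sib

/-!
The good ultrafilter at a bad point, given the main estimate.
-/

open Set Filter Topology Metric Bornology

namespace Vale.Agent.P116.PBC

open H906

variable {K : Set ℂ} {g : ℂ} {n₀ : ℕ}

/-- the main estimate: the point `g` is good for every ultrafilter induced by the coupling -/
def MainG (K : Set ℂ) (g : ℂ) (n₀ : ℕ) : Prop :=
  ∀ (𝓗 : Ultrafilter (Set ℂ → Set (Set ℂ))) (V : Ultrafilter ℕ), (V : Filter ℕ) ≤ atTop →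
    (∀ m, ∀ᶠ H in (𝓗 : Filter (Set ℂ → Set (Set ℂ))), ∀ R ∈ Sibs K g n₀ m, NS K R (H R)) →
    ∀ 𝔊 : Ultrafilter Str, Fine K (𝔊 : Filter Str) →
    (∀ p : Set (Set ℂ) → Prop, (∀ᶠ S in (𝔊 : Filter Str), p (rs (nd K n₀ g) S.1)) ↔
      ∀ᶠ m in (V : Filter ℕ), ∀ᶠ H in (𝓗 : Filter (Set ℂ → Set (Set ℂ))), p (Sm K g n₀ m H)) →
    ∀ φ : ℂ → ℂ, TendstoLocallyUniformlyOn (kF fk) φ (𝔊 : Filter Str) Kᶜ →
      GoodAt fk K (𝔊 : Filter Str) g

theorem gc_of_main (hK : IsCompact K) (hg : g ∈ K)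
    (h : ∀ m ≥ n₀, ∀ y ∈ K, y ∈ nd K n₀ g → g ∉ nd K m y → GoodN K (nd K m y))
    (hmain : MainG K g n₀) : GoodN K (nd K n₀ g) := by
  classical
  set Q := nd K n₀ g with hQ
  have h1 : ∀ R : Set ℂ, ∃ F : Ultrafilter (Set (Set ℂ)),
      ∀ m, R ∈ Sibs K g n₀ m → GoodF K R F := by
    intro R
    by_cases hR : ∃ m, R ∈ Sibs K g n₀ m
    · obtain ⟨m, hm⟩ := hR
      obtain ⟨l, hl, -, hsub, y, hy, hyl, hgy, hRe⟩ := sib_sub_lev hm
      have h2 : GoodN K (nd K (l + 1) y) := h (l + 1) (by omega) y hy (nd_anti hl hyl) hgy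
      obtain ⟨F, hF⟩ := h2
      rw [← hRe] at hF
      exact ⟨F, fun _ _ => hF⟩
    · exact ⟨pure ∅, fun m hm => (hR ⟨m, hm⟩).elim⟩
  choose F hF using h1
  obtain ⟨𝓗, h𝓗⟩ := exists_coupling F
  have hev : ∀ {p : Set ℂ → Set (Set ℂ) → Prop} (m : ℕ),
      (∀ R ∈ Sibs K g n₀ m, ∀ᶠ S in (F R : Filter (Set (Set ℂ))), p R S) →
      ∀ᶠ H in (𝓗 : Filter (Set ℂ → Set (Set ℂ))), ∀ R ∈ Sibs K g n₀ m, p R (H R) := by
    intro p m hp
    rw [eventually_all_finite (finite_Sibs hK g n₀ m)]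
    intro R hR
    have h2 := hp R hR
    rw [← h𝓗 R, Ultrafilter.coe_map, eventually_map] at h2
    exact h2
  have hNS : ∀ m, ∀ᶠ H in (𝓗 : Filter (Set ℂ → Set (Set ℂ))),
      ∀ R ∈ Sibs K g n₀ m, NS K R (H R) := fun m =>
    hev (p := fun R S => NS K R S) m fun R hR => (hF R m hR).ns
  set V : Ultrafilter ℕ := Ultrafilter.of (atTop : Filter ℕ) with hV
  have hVtop : (V : Filter ℕ) ≤ atTop := Ultrafilter.of_le _
  set FF : Ultrafilter (Set (Set ℂ)) := V.bind fun m => 𝓗.map (Sm K g n₀ m) with hFF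
  have hFFev : ∀ p : Set (Set ℂ) → Prop, (∀ᶠ S in (FF : Filter (Set (Set ℂ))), p S) ↔
      ∀ᶠ m in (V : Filter ℕ), ∀ᶠ H in (𝓗 : Filter (Set ℂ → Set (Set ℂ))), p (Sm K g n₀ m H) := by
    intro p
    have : (FF : Filter (Set (Set ℂ))) =
        Filter.bind (V : Filter ℕ) (fun m => ((𝓗.map (Sm K g n₀ m) : Ultrafilter (Set (Set ℂ))) :
          Filter (Set (Set ℂ)))) := rfl
    rw [this, Filter.eventually_bind]
    rfl
  refine ⟨FF, ?_, ?_, ?_⟩
  · rw [hFFev]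
    filter_upwards [hVtop (eventually_ge_atTop n₀)] with m hm
    filter_upwards [hNS m] with H hH
    exact NS_Sm hK hg hm hH
  · intro n
    rw [hFFev]
    filter_upwards [hVtop (eventually_ge_atTop n)] with m hm
    have h2 := hev (p := fun R S => ∀ P ∈ S, P ⊆ lev K n) m fun R hR => (hF R m hR).fine n
    filter_upwards [h2] with H hH P hP
    rcases mem_Sm.1 hP with rfl | ⟨R, hR, hPR⟩
    · exact (nd_subset m g).trans (lev_anti hm)
    · exact hH R hR P hPR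
  · intro 𝔊 hG hGF φ hφ x hx hxQ
    have hGev : ∀ p : Set (Set ℂ) → Prop, (∀ᶠ S in (𝔊 : Filter Str), p (rs Q S.1)) ↔
        ∀ᶠ m in (V : Filter ℕ), ∀ᶠ H in (𝓗 : Filter (Set ℂ → Set (Set ℂ))),
          p (Sm K g n₀ m H) := by
      intro p
      rw [← hFFev p, ← hGF, Ultrafilter.coe_map, eventually_map]
    by_cases hall : ∀ j, x ∈ nd K j g
    · obtain ⟨c, r, hr, hG1, hG2⟩ := hmain 𝓗 V hVtop hNS 𝔊 hG hGev φ hφ
      refine ⟨c, r, hr, fun ε hε => ?_, hG2⟩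
      obtain ⟨n, hn⟩ := hG1 ε hε
      refine ⟨n, ?_⟩
      rwa [nd_eq (hall n)]
    · push Not at hall
      obtain ⟨j, hj⟩ := hall
      obtain ⟨l, hl, hxl, hgx⟩ := exists_sib hg hx hxQ hj
      set R := nd K (l + 1) x with hR
      have hRm : ∀ m, l < m → R ∈ Sibs K g n₀ m := fun m hm => ⟨l, hl, hm, x, hx, hxl, hgx, rfl⟩
      have hRQ : R ⊆ Q := sib_sub (hRm (l + 1) (Nat.lt_succ_self l))
      refine (hF R (l + 1) (hRm _ (Nat.lt_succ_self l))).good 𝔊 hG ?_ φ hφ x hx (mem_nd hx _)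
      apply Ultrafilter.coe_le_coe.1
      intro A hA
      rw [Ultrafilter.coe_map, Filter.mem_map]
      have h2 : ∀ᶠ S in (𝔊 : Filter Str), rs R (rs Q S.1) ∈ A := by
        refine (hGev (fun T => rs R T ∈ A)).2 ?_
        filter_upwards [hVtop (eventually_gt_atTop l)] with m hm
        have h3 : ∀ᶠ H in (𝓗 : Filter (Set ℂ → Set (Set ℂ))), H R ∈ A := by
          have h4 : ∀ᶠ S in (F R : Filter (Set (Set ℂ))), S ∈ A := hA
          rw [← h𝓗 R, Ultrafilter.coe_map, eventually_map] at h4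
          exact h4
        filter_upwards [h3, hNS m] with H hH1 hH2
        rwa [rs_Sm hg hH2 (hRm m hm)]
      filter_upwards [h2] with S hS
      rwa [rs_rs hRQ] at hS

end Vale.Agent.P116.PBC
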