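import Vale.Agent.P116.H906.LL

/-!
Disjoint round disks satisfy the packing bound.
-/

open Set Filter Topology Metric Bornology MeasureTheory
open scoped Real

namespace Vale.Agent.P116.PBC

theorem exten_disk_le_two {x c : ℂ} {s r : ℝ} (hs : 0 < s) :
    H906.exten x (closedBall c s) r ≤ 2 * s := by
  have h1 : Ioo r (2 * r) ∩ {ρ | (closedBall c s ∩ sphere x ρ).Nonempty} ⊆
      Icc (dist c x - s) (dist c x + s) := by
    rintro ρ ⟨-, w, hw, hwx⟩
    rw [mem_closedBall] at hw
    rw [mem_sphere] at hwx
    have h2 := dist_triangle c w x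
    have h3 := dist_triangle w c x
    rw [dist_comm c w] at h2
    constructor <;> linarith
  refine (measureReal_mono h1 (by simp)).trans ?_
  rw [Real.volume_real_Icc_of_le (by linarith)]
  linarith

theorem exten_le_self {x : ℂ} {Q : Set ℂ} {r : ℝ} (hr : 0 < r) : H906.exten x Q r ≤ r := by
  refine (measureReal_mono inter_subset_left (by simp)).trans ?_
  rw [Real.volume_real_Ioo_of_le (by linarith)]
  linarith

theorem exten_disk_sq {x c : ℂ} {s r : ℝ} (hs : 0 < s) (hr : 0 < r) :
    H906.exten x (closedBall c s) r ^ 2 ≤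
      4 / π * volume.real (closedBall c s ∩ closedBall x (3 * r)) := by
  by_cases hne : (closedBall c s ∩ H906.ann x r).Nonempty
  · obtain ⟨w, hw, hwx⟩ := hne
    have hwx' : dist w x < 2 * r := hwx.2
    rw [mem_closedBall] at hw
    set m := min s (r / 2) with hm
    have hm0 : 0 < m := lt_min hs (by positivity)
    have hms : m ≤ s := min_le_left _ _
    have hmr : m ≤ r / 2 := min_le_right _ _
    set c' : ℂ := w + ((m / s : ℝ) : ℂ) * (c - w) with hc'
    have hq0 : 0 ≤ m / s := by positivity
    have hq1 : m / s ≤ 1 := (div_le_one hs).2 hms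
    have h1 : dist c' c ≤ s - m := by
      have h2 : c' - c = ((1 - m / s : ℝ) : ℂ) * (w - c) := by
        rw [hc']
        push_cast
        ring
      rw [dist_eq_norm, h2, norm_mul, Complex.norm_real, Real.norm_of_nonneg (by linarith),
        ← dist_eq_norm]
      calc (1 - m / s) * dist w c ≤ (1 - m / s) * s :=
            mul_le_mul_of_nonneg_left hw (by linarith)
        _ = s - m := by field_simp
    have h2 : dist c' w ≤ m := by
      have h3 : c' - w = ((m / s : ℝ) : ℂ) * (c - w) := by
        rw [hc']
        ring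
      rw [dist_eq_norm, h3, norm_mul, Complex.norm_real, Real.norm_of_nonneg hq0, norm_sub_rev,
        ← dist_eq_norm]
      calc m / s * dist w c ≤ m / s * s := mul_le_mul_of_nonneg_left hw hq0
        _ = m := by field_simp
    have h3 : closedBall c' m ⊆ closedBall c s ∩ closedBall x (3 * r) := by
      intro z hz
      rw [mem_closedBall] at hz
      rw [mem_inter_iff, mem_closedBall, mem_closedBall]
      have h4 := dist_triangle z c' c
      have h5 := dist_triangle z c' x
      have h6 := dist_triangle c' w x
      constructor <;> linarith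
    have h4 : volume.real (closedBall c' m) ≤
        volume.real (closedBall c s ∩ closedBall x (3 * r)) :=
      measureReal_mono h3 (ne_of_lt ((measure_mono inter_subset_left).trans_lt
        measure_closedBall_lt_top))
    have h5 : volume.real (closedBall c' m) = π * m ^ 2 := by
      rw [Measure.real, Complex.volume_closedBall, ENNReal.toReal_mul, ENNReal.toReal_pow,
        ENNReal.toReal_ofReal hm0.le]
      simp [mul_comm]
    have h6 : H906.exten x (closedBall c s) r ≤ 2 * m := by
      rw [hm, mul_min_of_nonneg _ _ (by norm_num : (0:ℝ) ≤ 2)]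
      refine le_min (exten_disk_le_two hs) ((exten_le_self hr).trans ?_)
      linarith
    have h7 : H906.exten x (closedBall c s) r ^ 2 ≤ (2 * m) ^ 2 :=
      pow_le_pow_left₀ (H906.exten_nonneg _ _ _) h6 2
    calc H906.exten x (closedBall c s) r ^ 2 ≤ (2 * m) ^ 2 := h7
      _ = 4 / π * (π * m ^ 2) := by
        field_simp
        ring
      _ ≤ 4 / π * volume.real (closedBall c s ∩ closedBall x (3 * r)) :=
        mul_le_mul_of_nonneg_left (h5 ▸ h4) (by positivity)
  · rw [H906.exten_eq_zero hne]
    have : 0 ≤ volume.real (closedBall c s ∩ closedBall x (3 * r)) := measureReal_nonneg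
    have h0 : (0 : ℝ) ^ 2 = 0 := by norm_num
    rw [h0]
    positivity

theorem pack_round {ι : Type*} (J : Finset ι) {c : ι → ℂ} {s : ι → ℝ} (hs : ∀ j ∈ J, 0 < s j)
    (hd : ∀ i ∈ J, ∀ j ∈ J, i ≠ j → Disjoint (closedBall (c i) (s i)) (closedBall (c j) (s j)))
    (x : ℂ) {r : ℝ} (hr : 0 < r) :
    ∑ j ∈ J, H906.exten x (closedBall (c j) (s j)) r ^ 2 ≤ 36 * r ^ 2 := by
  have h1 : ∑ j ∈ J, H906.exten x (closedBall (c j) (s j)) r ^ 2 ≤
      ∑ j ∈ J, 4 / π * volume.real (closedBall (c j) (s j) ∩ closedBall x (3 * r)) :=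
    Finset.sum_le_sum fun j hj => exten_disk_sq (hs j hj) hr
  have h2 : ∑ j ∈ J, volume.real (closedBall (c j) (s j) ∩ closedBall x (3 * r)) =
      volume.real (⋃ j ∈ J, (closedBall (c j) (s j) ∩ closedBall x (3 * r))) := by
    refine (measureReal_biUnion_finset (fun i hi j hj hij => ?_) (fun j _ => ?_)
      (h := fun j _ => ?_)).symm
    · exact (hd i hi j hj hij).mono inter_subset_left inter_subset_left
    · exact measurableSet_closedBall.inter measurableSet_closedBall
    · exact ne_of_lt ((measure_mono inter_subset_left).trans_lt measure_closedBall_lt_top)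
  have h3 : volume.real (⋃ j ∈ J, (closedBall (c j) (s j) ∩ closedBall x (3 * r))) ≤
      volume.real (closedBall x (3 * r)) :=
    measureReal_mono (iUnion₂_subset fun j _ => inter_subset_right)
      (ne_of_lt measure_closedBall_lt_top)
  have h4 : volume.real (closedBall x (3 * r)) = π * (3 * r) ^ 2 := by
    rw [Measure.real, Complex.volume_closedBall, ENNReal.toReal_mul, ENNReal.toReal_pow,
      ENNReal.toReal_ofReal (by positivity)]
    simp [mul_comm]
  calc ∑ j ∈ J, H906.exten x (closedBall (c j) (s j)) r ^ 2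
      ≤ ∑ j ∈ J, 4 / π * volume.real (closedBall (c j) (s j) ∩ closedBall x (3 * r)) := h1
    _ = 4 / π * volume.real (⋃ j ∈ J, (closedBall (c j) (s j) ∩ closedBall x (3 * r))) := by
      rw [← Finset.mul_sum, h2]
    _ ≤ 4 / π * (π * (3 * r) ^ 2) := mul_le_mul_of_nonneg_left (h4 ▸ h3) (by positivity)
    _ = 36 * r ^ 2 := by
      field_simp
      ring

end Vale.Agent.P116.PBC
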