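import Mathlib
import Vale.Agent.P116.PBC.Def

/-!
Comparison of two structures.
-/

open Set Filter Topology Metric Bornology MeasureTheory
open scoped Real

namespace Vale.Agent.P116.PBC

open H906

lemma frontier_Tp {S : Set (Set ℂ)} {f : ℂ → ℂ} {c : Set ℂ → ℂ} {r : Set ℂ → ℝ} (hS : Adm S)
    (h : CMap S f c r) {w₀ : ℂ} {ρ : ℝ} (hρ : 0 < ρ) :
    frontier (Tp S f c r (ball w₀ ρ)) ⊆ Tp S f c r (sphere w₀ ρ) := by
  have hΩo := hS.isOpen_compl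
  intro z hz
  by_cases hzS : z ∈ ⋃₀ S
  · obtain ⟨P, hP, hzP⟩ := hzS
    refine Or.inr ⟨P, hP, hzP, ?_⟩
    by_contra hcon
    rw [inter_comm, not_nonempty_iff_eq_empty, ← disjoint_iff_inter_eq_empty] at hcon
    have hr := h.rpos P hP
    have hev := hS.evt hP hzP
    by_cases hmeet : (closedBall (c P) (r P) ∩ ball w₀ ρ).Nonempty
    · have hsub : closedBall (c P) (r P) ⊆ ball w₀ ρ := by
        refine subset_of_frontier_disjoint (convex_closedBall _ _).isPreconnected hmeet ?_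
        rw [frontier_ball _ hρ.ne']
        exact hcon
      have h1 := h.lim_open hP hzP isOpen_ball hsub
      rw [eventually_nhdsWithin_iff] at h1
      refine hz.2 (mem_interior_iff_mem_nhds.2 ?_)
      filter_upwards [hev, h1] with y hy1 hy2
      rcases hy1 with hy1 | hy1
      · exact Or.inl ⟨hy1, hy2 hy1⟩
      · exact Or.inr ⟨P, hP, hy1, by rwa [inter_comm]⟩
    · have hsub : closedBall (c P) (r P) ⊆ (closedBall w₀ ρ)ᶜ := by
        intro y hy hy2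
        rw [← ball_union_sphere] at hy2
        rcases hy2 with hy2 | hy2
        · exact hmeet ⟨y, hy, hy2⟩
        · exact disjoint_left.1 hcon hy hy2
      have h1 := h.lim_open hP hzP isClosed_closedBall.isOpen_compl hsub
      rw [eventually_nhdsWithin_iff] at h1
      have h2 : ∀ᶠ y in 𝓝 z, y ∉ Tp S f c r (ball w₀ ρ) := by
        filter_upwards [hev, h1] with y hy1 hy2 hy3
        rcases hy3 with ⟨hy3, hy4⟩ | ⟨P', hP', hyP', hne⟩
        · exact hy2 hy3 (ball_subset_closedBall hy4)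
        · rcases hy1 with hy1 | hy1
          · exact hy1 ⟨P', hP', hyP'⟩
          · have : P' = P := by
              by_contra hne'
              exact disjoint_left.1 (hS.disj P' hP' P hP hne') hyP' hy1
            subst this
            rw [inter_comm] at hne
            exact hmeet hne
      obtain ⟨y, hy1, hy2⟩ := mem_closure_iff_nhds.1 hz.1 _ h2
      exact hy1 hy2
  · left
    refine ⟨hzS, ?_⟩
    have hcont : ContinuousAt f z := h.contOn.continuousAt (hΩo.mem_nhds hzS)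
    rw [mem_sphere]
    apply le_antisymm
    · by_contra hcon
      rw [not_le] at hcon
      have h1 : ∀ᶠ y in 𝓝 z, f y ∈ (closedBall w₀ ρ)ᶜ := by
        refine hcont.eventually (isClosed_closedBall.isOpen_compl.mem_nhds ?_)
        rw [mem_compl_iff, mem_closedBall, not_le]
        exact hcon
      obtain ⟨y, hy1, hy2⟩ := mem_closure_iff_nhds.1 hz.1 _ (inter_mem h1 (hΩo.mem_nhds hzS))
      rcases hy2 with ⟨-, hy3⟩ | ⟨P, hP, hyP, -⟩
      · exact hy1.1 (ball_subset_closedBall hy3)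
      · exact hy1.2 ⟨P, hP, hyP⟩
    · by_contra hcon
      rw [not_le] at hcon
      refine hz.2 (mem_interior_iff_mem_nhds.2 ?_)
      filter_upwards [hcont.eventually (isOpen_ball.mem_nhds hcon), hΩo.mem_nhds hzS] with y hy1 hy2
      exact Or.inl ⟨hy2, hy1⟩

lemma Tp_subset {S : Set (Set ℂ)} {f : ℂ → ℂ} {c : Set ℂ → ℂ} {r : Set ℂ → ℝ}
    (h : CMap S f c r) {Q Δ : Set ℂ} (hQ : ∀ P ∈ S, (P ∩ Q).Nonempty → P ⊆ Q)
    (hΔ : Δ ⊆ Tm S f c r Q) : Tp S f c r Δ ⊆ Q := by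
  rintro z (⟨hz, hzΔ⟩ | ⟨P, hP, hzP, w, hwΔ, hwP⟩)
  · by_contra hcon
    exact h.notMem_Tm hz hcon (hΔ hzΔ)
  · rcases hΔ hwΔ with ⟨y, ⟨-, hy⟩, rfl⟩ | hw
    · exact absurd hwP (h.notMem hy hP)
    · obtain ⟨P', ⟨hP', y, hyQ, hyP'⟩, hwP'⟩ := mem_iUnion₂.1 hw
      have : P' = P := by
        by_contra hne
        exact disjoint_left.1 (h.disj P' hP' P hP hne) hwP' hwP
      subst this
      exact hQ P' hP' ⟨y, hyP', hyQ⟩ hzP

/-- **comparison of two structures** sharing the same pieces off `L` -/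
theorem two (h : FK) (S S' : Str) {Q L : Set ℂ} {R : ℝ} (hR : 0 < R) (hQR : Q ⊆ ball 0 R)
    (hSR : ⋃₀ S.1 ⊆ closedBall 0 R) (hS'R : ⋃₀ S'.1 ⊆ closedBall 0 R)
    (hQ : ∀ P ∈ S.1, (P ∩ Q).Nonempty → P ⊆ Q) (hQ' : ∀ P ∈ S'.1, (P ∩ Q).Nonempty → P ⊆ Q)
    (hL : L ∈ S'.1) (hJ1 : ∀ P ∈ S.1, P ⊆ Q → P ∈ S'.1 ∨ P ⊆ L)
    (hJ2 : ∀ P ∈ S'.1, P ⊆ Q → P ∈ S.1 ∨ P = L)
    {g : ℂ} (hg : g ∈ L) {Pg : Set ℂ} (hPg : Pg ∈ S.1) (hgP : g ∈ Pg)
    {w₀ : ℂ} (hw₀ : w₀ ∈ kT h S L) {m : ℕ} (hm0 : 0 < m) {r : ℕ → ℝ} (hr : ∀ k < m, 0 < r k)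
    (hdisj : ∀ k < m, ∀ l < m, k ≠ l → Disjoint (ann w₀ (r k)) (ann w₀ (r l)))
    (hball : ∀ k < m, ball w₀ (2 * r k) ⊆ kT h S Q)
    (hfar : ∀ k < m, Disjoint (closedBall (kc h S Pg) (kr h S Pg)) (ball w₀ (2 * r k)))
    (hone : ∀ P ∈ S.1, P ⊆ Q → ¬ P ⊆ L → ∀ k < m, ∀ l < m,
      (closedBall (kc h S P) (kr h S P) ∩ ann w₀ (r k)).Nonempty →
      (closedBall (kc h S P) (kr h S P) ∩ ann w₀ (r l)).Nonempty → k = l)
    (hpack : ∀ J : Finset (Set ℂ), (∀ P ∈ J, P ∈ S.1) → ∀ k < m,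
      ∑ P ∈ J, exten w₀ (closedBall (kc h S P) (kr h S P)) (r k) ^ 2 ≤ 36 * r k ^ 2)
    {ε : ℝ} (hε0 : 0 ≤ ε) (hε : π * (5 * R) ^ 2 + 2 * π + 36 + 1 ≤ ε * √m)
    {z : ℂ} (hz : z ∉ ⋃₀ S.1) (hz' : z ∉ ⋃₀ S'.1) (hzw : ∀ k < m, kF h S z ∈ ball w₀ (r k)) :
    kF h S' z ∈ closedBall (kc h S' L) (kr h S' L + ε) := by
  classical
  set f := kF h S with hf
  set f' := kF h S' with hf'
  have hmap := kmap h S
  have hmap' := kmap h S'
  have hΩo : IsOpen (⋃₀ S.1)ᶜ := S.2.isOpen_compl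
  have hΩo' : IsOpen (⋃₀ S'.1)ᶜ := S'.2.isOpen_compl
  have hLQ : (L ∩ Q).Nonempty → L ⊆ Q := hQ' L hL
  set J : Finset (Set ℂ) := S.2.fin.toFinset.filter (fun P => P ⊆ Q ∧ ¬ P ⊆ L) with hJ
  have hJm : ∀ P, P ∈ J ↔ P ∈ S.1 ∧ P ⊆ Q ∧ ¬ P ⊆ L := by
    intro P
    simp [hJ]
  have hJS' : ∀ P ∈ J, P ∈ S'.1 := by
    intro P hP
    obtain ⟨h1, h2, h3⟩ := (hJm P).1 hP
    exact (hJ1 P h1 h2).resolve_right h3
  set U : Set ℂ := interior Q ∩ Lᶜ ∩ (⋃₀ S.1)ᶜ with hU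
  have hLc : IsClosed L := (S'.2.cpt L hL).isClosed
  have hUo : IsOpen U := (isOpen_interior.inter hLc.isOpen_compl).inter hΩo
  have hUΩ : U ⊆ (⋃₀ S.1)ᶜ := inter_subset_right
  have hUΩ' : U ⊆ (⋃₀ S'.1)ᶜ := by
    rintro y ⟨⟨hyQ, hyL⟩, hyS⟩ ⟨P, hP, hyP⟩
    have hPQ := hQ' P hP ⟨y, hyP, interior_subset hyQ⟩
    rcases hJ2 P hP hPQ with h1 | h1
    · exact hyS ⟨P, h1, hyP⟩
    · exact hyL (h1 ▸ hyP)
  set O : Set ℂ := f '' U with hO
  have hOo : IsOpen O := isOpen_image_of_inj hΩo hmap.nu.diff hmap.nu.inj hUo hUΩ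
  set finv : ℂ → ℂ := Function.invFunOn f (⋃₀ S.1)ᶜ with hfinv
  have hfinv1 : ∀ y ∈ (⋃₀ S.1)ᶜ, finv (f y) = y := by
    intro y hy
    have h1 := Function.invFunOn_mem (mem_image_of_mem f hy)
    have h2 := Function.invFunOn_eq (mem_image_of_mem f hy)
    exact hmap.nu.inj h1 hy h2
  set hh : ℂ → ℂ := fun w => f' (finv w) with hhh
  have hhf : ∀ y ∈ (⋃₀ S.1)ᶜ, hh (f y) = f' y := fun y hy => by
    simp only [hhh]
    rw [hfinv1 y hy]
  have hfinvO : MapsTo finv O (⋃₀ S'.1)ᶜ := by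
    rintro _ ⟨y, hy, rfl⟩
    rw [hfinv1 y (hUΩ hy)]
    exact hUΩ' hy
  have hhd : DifferentiableOn ℂ hh O := by
    refine hmap'.nu.diff.comp ?_ hfinvO
    exact (inv_diff hΩo hmap.nu.diff hmap.nu.inj).mono (image_mono hUΩ)
  have hhi : InjOn hh O := by
    rintro _ ⟨y, hy, rfl⟩ _ ⟨y', hy', rfl⟩ he
    rw [hhf y (hUΩ hy), hhf y' (hUΩ hy')] at he
    rw [hmap'.nu.inj (hUΩ' hy) (hUΩ' hy') he]
  have hTb : kT h S' Q ⊆ closedBall 0 (5 * R) := kT_bdd h S' hR hS'R hQR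
  obtain ⟨k, hk, ρ, hρ, hvol⟩ := length_area J (Q := fun P => closedBall (kc h S P) (kr h S P))
    (c := kc h S') (s := kr h S') hOo hhd hhi
    (fun P hP => (hmap'.rpos P (hJS' P hP)).le)
    (fun P _ => isCompact_closedBall _ _)
    (fun P hP P' hP' hne => hmap'.disj P (hJS' P hP) P' (hJS' P' hP') hne)
    (fun P hP => by
      rw [disjoint_left]
      rintro w hw ⟨_, ⟨y, hy, rfl⟩, rfl⟩
      rw [hhf y (hUΩ hy)] at hw
      exact hmap'.notMem (hUΩ' hy) (hJS' P hP) hw)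
    (M := 5 * R) (by positivity)
    (fun P hP => by
      intro w hw
      obtain ⟨y, hy⟩ := (S'.2.conn P (hJS' P hP)).nonempty
      exact hTb (Or.inr (mem_iUnion₂.2 ⟨P, ⟨hJS' P hP, y, ((hJm P).1 hP).2.1 hy, hy⟩, hw⟩)))
    (x := w₀) hm0 hr hdisj
    (fun k _ => by
      rintro _ ⟨_, ⟨-, y, hy, rfl⟩, rfl⟩
      rw [hhf y (hUΩ hy)]
      exact hTb (Or.inl ⟨y, ⟨interior_subset hy.1.1, hUΩ' hy⟩, rfl⟩))
    (fun P hP k hk l hl h1 h2 => by
      obtain ⟨hP1, hP2, hP3⟩ := (hJm P).1 hP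
      exact hone P hP1 hP2 hP3 k hk l hl h1 h2)
    (C := 36) (fun k hk => hpack J (fun P hP => ((hJm P).1 hP).1) k hk)
    hε0 hε
  set E := hh '' (sphere w₀ ρ ∩ O) ∪
        ⋃ j ∈ {j | j ∈ J ∧ (closedBall (kc h S j) (kr h S j) ∩ sphere w₀ ρ).Nonempty},
          closedBall (kc h S' j) (kr h S' j) with hE
  have hρ0 : 0 < ρ := (hr k hk).trans hρ.1
  have hsph2 : sphere w₀ ρ ⊆ ball w₀ (2 * r k) := fun w hw => by
    rw [mem_ball, mem_sphere.1 hw]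
    exact hρ.2
  have hbl2 : ball w₀ ρ ⊆ ball w₀ (2 * r k) := ball_subset_ball hρ.2.le
  set V := Tp S.1 f (kc h S) (kr h S) (ball w₀ ρ) with hV
  set B := Tp S.1 f (kc h S) (kr h S) (sphere w₀ ρ) with hB
  have hVQ : V ⊆ Q := Tp_subset hmap hQ (hbl2.trans (hball k hk))
  have hBQ : B ⊆ Q := Tp_subset hmap hQ (hsph2.trans (hball k hk))
  have hBint : ∀ y ∈ B, y ∉ ⋃₀ S.1 → y ∈ interior Q := by
    intro y hy hyS
    have hfy : f y ∈ sphere w₀ ρ := by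
      rcases hy with ⟨-, h1⟩ | ⟨P, hP, hyP, -⟩
      · exact h1
      · exact absurd ⟨P, hP, hyP⟩ hyS
    have hcont : ContinuousAt f y := hmap.contOn.continuousAt (hΩo.mem_nhds hyS)
    rw [mem_interior_iff_mem_nhds]
    filter_upwards [hcont.eventually (isOpen_ball.mem_nhds (hsph2 hfy)), hΩo.mem_nhds hyS]
      with x hx1 hx2
    exact Tp_subset hmap hQ (hball k hk) (Or.inl ⟨hx2, hx1⟩)
  have hfrV : frontier V ⊆ B := frontier_Tp S.2 hmap hρ0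
  have hLconn : IsPreconnected L := (S'.2.conn L hL).isPreconnected
  have hVL : (L ∩ V).Nonempty := by
    rcases hw₀ with ⟨y, ⟨hyL, hyS⟩, hyw⟩ | hw
    · refine ⟨y, hyL, Or.inl ⟨hyS, ?_⟩⟩
      change f y = w₀ at hyw
      rw [hyw]
      exact mem_ball_self hρ0
    · obtain ⟨P, ⟨hP, y, hyL, hyP⟩, hwP⟩ := mem_iUnion₂.1 hw
      exact ⟨y, hyL, Or.inr ⟨P, hP, hyP, w₀, mem_ball_self hρ0, hwP⟩⟩
  have hhit : (B ∩ L).Nonempty := by
    by_contra hcon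
    rw [inter_comm, not_nonempty_iff_eq_empty, ← disjoint_iff_inter_eq_empty] at hcon
    have hLV : L ⊆ V := subset_of_frontier_disjoint hLconn hVL (hcon.mono_right hfrV)
    rcases hLV hg with ⟨h1, -⟩ | ⟨P, hP, hgP', w, hw1, hw2⟩
    · exact h1 ⟨Pg, hPg, hgP⟩
    · have : P = Pg := by
        by_contra hne
        exact disjoint_left.1 (S.2.disj P hP Pg hPg hne) hgP' hgP
      subst this
      exact disjoint_left.1 (hfar k hk) hw2 (hbl2 hw1)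
  have hΓc : IsPreconnected (kT h S' B) :=
    hmap'.push S'.2 (hmap.pull S.2 (isPreconnected_sphere' w₀ ρ))
  have hΓE : kT h S' B = E ∪ closedBall (kc h S' L) (kr h S' L) := by
    apply Subset.antisymm
    · rintro w (⟨y, ⟨hyB, hyS'⟩, rfl⟩ | hw)
      · left; left
        have hyQ := hBQ hyB
        have hyS : y ∉ ⋃₀ S.1 := by
          rintro ⟨P, hP, hyP⟩
          rcases hJ1 P hP (hQ P hP ⟨y, hyP, hyQ⟩) with h1 | h1
          · exact hyS' ⟨P, h1, hyP⟩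
          · exact hyS' ⟨L, hL, h1 hyP⟩
        have hyU : y ∈ U := ⟨⟨hBint y hyB hyS, fun hyL => hyS' ⟨L, hL, hyL⟩⟩, hyS⟩
        have hfy : f y ∈ sphere w₀ ρ := by
          rcases hyB with ⟨-, h1⟩ | ⟨P, hP, hyP, -⟩
          · exact h1
          · exact absurd ⟨P, hP, hyP⟩ hyS
        exact ⟨f y, ⟨hfy, y, hyU, rfl⟩, hhf y hyS⟩
      · obtain ⟨P', ⟨hP', y, hyB, hyP'⟩, hwP'⟩ := mem_iUnion₂.1 hw
        by_cases hP'L : P' = L
        · right
          rw [← hP'L]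
          exact hwP'
        · left; right
          have hyQ := hBQ hyB
          have hP'Q := hQ' P' hP' ⟨y, hyP', hyQ⟩
          have hP'S := (hJ2 P' hP' hP'Q).resolve_right hP'L
          have hnL : ¬ P' ⊆ L := fun hsub =>
            disjoint_left.1 (S'.2.disj P' hP' L hL hP'L) hyP' (hsub hyP')
          have hD : (sphere w₀ ρ ∩ closedBall (kc h S P') (kr h S P')).Nonempty := by
            rcases hyB with ⟨h1, -⟩ | ⟨P, hP, hyP, hne⟩
            · exact absurd ⟨P', hP'S, hyP'⟩ h1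
            · have : P = P' := by
                by_contra hne'
                exact disjoint_left.1 (S.2.disj P hP P' hP'S hne') hyP hyP'
              rw [← this]
              exact hne
          exact mem_iUnion₂.2 ⟨P', ⟨(hJm P').2 ⟨hP'S, hP'Q, hnL⟩, by rwa [inter_comm]⟩, hwP'⟩
    · rintro w ((⟨_, ⟨hw1, y, hyU, rfl⟩, rfl⟩ | hw) | hw)
      · rw [hhf y (hUΩ hyU)]
        exact Or.inl ⟨y, ⟨Or.inl ⟨hUΩ hyU, hw1⟩, hUΩ' hyU⟩, rfl⟩
      · obtain ⟨P, ⟨hP, hne⟩, hwP⟩ := mem_iUnion₂.1 hw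
        obtain ⟨y, hy⟩ := (S.2.conn P ((hJm P).1 hP).1).nonempty
        refine Or.inr (mem_iUnion₂.2 ⟨P, ⟨hJS' P hP, y, Or.inr ⟨P, ((hJm P).1 hP).1, hy, ?_⟩, hy⟩,
          hwP⟩)
        rwa [inter_comm]
      · obtain ⟨y, hyB, hyL⟩ := hhit
        exact Or.inr (mem_iUnion₂.2 ⟨L, ⟨hL, y, hyB, hyL⟩, hw⟩)
  have hrL : 0 ≤ kr h S' L := (hmap'.rpos L hL).le
  have hΓb : kT h S' B ⊆ closedBall (kc h S' L) (kr h S' L + ε) := by
    intro w hw
    rw [hΓE] at hw hΓc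
    rw [mem_closedBall]
    rcases hw with hw | hw
    · exact dist_le_of_prj_disk hrL hΓc hε0 hvol hw
    · rw [mem_closedBall] at hw
      linarith
  have hVb : Bornology.IsBounded V := isBounded_ball.subset (hVQ.trans hQR)
  have hTV : kT h S' V ⊆ closedBall (kc h S' L) (kr h S' L + ε) :=
    hmap'.Tm_subset_closedBall S'.2 hVb (by positivity) ((Tm_mono hfrV).trans hΓb)
  refine hTV (Or.inl ⟨z, ⟨Or.inl ⟨hz, ?_⟩, hz'⟩, rfl⟩)
  exact ball_subset_ball hρ.1.le (hzw k hk)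

end Vale.Agent.P116.PBC
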