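import Mathlib
import Vale.Agent.P116.PBC.Def

/-!
The limit point `w₀` at a bad component.
-/

open Set Filter Topology Metric Bornology

namespace Vale.Agent.P116.PBC

open H906

variable {K : Set ℂ} {𝔊 : Ultrafilter Str}

/-- if the images of the node are not in the neighbourhood of the disk, some frontier point of the
node is mapped outside -/
lemma exists_frontier_far (hK : IsCompact K) (hf : Full K) (hG : Fine K (𝔊 : Filter Str)) {g : ℂ}
    {f : ℂ → ℂ} (hlim : TendstoLocallyUniformlyOn (kF fk) f (𝔊 : Filter Str) Kᶜ)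
    {cS : Str → ℂ} {rS : Str → ℝ} {c : ℂ} {r : ℝ} (hc : Tendsto cS 𝔊 (𝓝 c))
    (hr : Tendsto rS 𝔊 (𝓝 r)) (hr0 : ∀ᶠ S in (𝔊 : Filter Str), 0 ≤ rS S) {ε : ℝ} (hε : 0 < ε)
    {n : ℕ} (hbad : ¬ ∀ᶠ S in (𝔊 : Filter Str),
      kT fk S (nd K n g) ⊆ closedBall (cS S) (rS S + ε)) :
    ∃ z ∈ frontier (nd K n g), r + ε ≤ ‖f z - c‖ := by
  by_contra hcon
  push Not at hcon
  obtain ⟨R, hR, hRK⟩ := lev_bdd hK 0
  have hexh : Exh (𝔊 : Filter Str) Kᶜ (fun S : Str => (⋃₀ S.1)ᶜ) (kF fk) R := hG.exh hK hf hR hRK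
  set E := frontier (nd K n g) with hE
  have hEK : Disjoint E K := frontier_nd_disjoint n g
  have hEc : IsCompact E := (isCompact_nd hK n g).of_isClosed_subset isClosed_frontier
    ((isCompact_nd hK n g).isClosed.frontier_subset)
  have hEsub : E ⊆ Kᶜ := fun z hz => disjoint_left.1 hEK hz
  have hfc : ContinuousOn (fun z => ‖f z - c‖) E :=
    (((hexh.lim_diff hlim).continuousOn.mono hEsub).sub continuousOn_const).norm
  obtain ⟨η, hη, hηE⟩ : ∃ η > 0, ∀ z ∈ E, ‖f z - c‖ ≤ r + ε - 3 * η := by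
    rcases E.eq_empty_or_nonempty with h0 | h0
    · exact ⟨1, one_pos, fun z hz => by rw [h0] at hz; exact hz.elim⟩
    · obtain ⟨z₀, hz₀, hmax⟩ := hEc.exists_isMaxOn h0 hfc
      refine ⟨(r + ε - ‖f z₀ - c‖) / 3, by linarith [hcon z₀ hz₀], fun z hz => ?_⟩
      have h1 : ‖f z - c‖ ≤ ‖f z₀ - c‖ := hmax hz
      linarith
  have hunif : ∀ᶠ S in (𝔊 : Filter Str), ∀ z ∈ E, dist (f z) (kF fk S z) < η :=
    Metric.tendstoUniformlyOn_iff.1
      ((tendstoLocallyUniformlyOn_iff_forall_isCompact hK.isClosed.isOpen_compl).1 hlim E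
        hEsub hEc) η hη
  have hc1 : ∀ᶠ S in (𝔊 : Filter Str), dist (cS S) c < η / 2 :=
    hc.eventually (ball_mem_nhds c (by positivity))
  have hr1 : ∀ᶠ S in (𝔊 : Filter Str), dist (rS S) r < η / 2 :=
    hr.eventually (ball_mem_nhds r (by positivity))
  refine hbad ?_
  filter_upwards [hunif, hc1, hr1, hr0, hG.disj hK hf hEc hEK] with S h1 h2 h3 h4 h5
  refine (kmap fk S).Tm_subset_closedBall S.2 (isCompact_nd hK n g).isBounded
    (by positivity) ?_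
  rintro w (⟨z, ⟨hz1, hz2⟩, rfl⟩ | hw)
  · rw [mem_closedBall]
    have h6 := h1 z hz1
    have h7 := hηE z hz1
    rw [← dist_eq_norm] at h7
    have h8 := dist_triangle (kF fk S z) (f z) (cS S)
    have h9 := dist_triangle (f z) c (cS S)
    rw [dist_comm (kF fk S z) (f z)] at h8
    rw [dist_comm c] at h9
    rw [Real.dist_eq, abs_lt] at h3
    linarith [h3.1]
  · obtain ⟨P, ⟨hP, z, hz, hzP⟩, -⟩ := mem_iUnion₂.1 hw
    exact (disjoint_left.1 h5 hz ⟨P, hP, hzP⟩).elim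

/-- the limit point -/
theorem exists_w0 (hK : IsCompact K) (hf : Full K) (hG : Fine K (𝔊 : Filter Str)) {g : ℂ}
    (hg : g ∈ K) {f : ℂ → ℂ} (hlim : TendstoLocallyUniformlyOn (kF fk) f (𝔊 : Filter Str) Kᶜ)
    {cS : Str → ℂ} {rS : Str → ℝ} {c : ℂ} {r : ℝ} (hc : Tendsto cS 𝔊 (𝓝 c))
    (hr : Tendsto rS 𝔊 (𝓝 r)) (hr0 : ∀ᶠ S in (𝔊 : Filter Str), 0 ≤ rS S) {ε : ℝ} (hε : 0 < ε)
    (hbad : ∀ n, ¬ ∀ᶠ S in (𝔊 : Filter Str),
      kT fk S (nd K n g) ⊆ closedBall (cS S) (rS S + ε)) :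
    ∃ w₀ : ℂ, r + ε ≤ ‖w₀ - c‖ ∧
      (∀ n, ∃ δ > 0, ∀ᶠ S in (𝔊 : Filter Str), ball w₀ δ ⊆ kT fk S (nd K n g)) ∧
      ∀ τ > 0, ∃ z ∉ K, ‖f z - w₀‖ < τ := by
  have hz : ∀ n, ∃ z ∈ frontier (nd K n g), r + ε ≤ ‖f z - c‖ := fun n =>
    exists_frontier_far hK hf hG hlim hc hr hr0 hε (hbad n)
  choose z hzE hzf using hz
  obtain ⟨R, hR, hRK⟩ := lev_bdd hK 0
  have hexh : Exh (𝔊 : Filter Str) Kᶜ (fun S : Str => (⋃₀ S.1)ᶜ) (kF fk) R := hG.exh hK hf hR hRK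
  have hfnu : NU Kᶜ f := hexh.lim_nu hlim
  have hznd : ∀ n, z n ∈ nd K n g := fun n =>
    (isCompact_nd hK n g).isClosed.frontier_subset (hzE n)
  have hzK : ∀ n, z n ∉ K := fun n => disjoint_left.1 (frontier_nd_disjoint n g) (hzE n)
  have hzR : ∀ n, ‖z n‖ ≤ R := by
    intro n
    have h1 : z n ∈ closedBall (0 : ℂ) R := hRK (lev_anti (Nat.zero_le n) (nd_subset n g (hznd n)))
    rwa [mem_closedBall, dist_zero_right] at h1
  have htail : (closedBall (0 : ℂ) R)ᶜ ⊆ Kᶜ := compl_subset_compl.2 ((subset_lev 0).trans hRK)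
  have hfz : ∀ n, f (z n) ∈ closedBall (0 : ℂ) (5 * R) := by
    intro n
    rw [mem_closedBall, dist_zero_right]
    exact hfnu.norm_le hR htail (hzK n) (hzR n)
  set 𝓥 : Ultrafilter ℕ := Ultrafilter.of atTop with h𝓥
  have h𝓥le : (𝓥 : Filter ℕ) ≤ atTop := Ultrafilter.of_le _
  obtain ⟨x, -, hx⟩ := (isCompact_closedBall (0 : ℂ) R).ultrafilter_le_nhds (𝓥.map z) (by
    rw [le_principal_iff, Ultrafilter.coe_map, Filter.mem_map]
    exact Eventually.of_forall fun n => by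
      show z n ∈ closedBall (0 : ℂ) R
      rw [mem_closedBall, dist_zero_right]
      exact hzR n)
  have hx' : Tendsto z 𝓥 (𝓝 x) := hx
  obtain ⟨w₀, -, hw₀⟩ := (isCompact_closedBall (0 : ℂ) (5 * R)).ultrafilter_le_nhds
    (𝓥.map (fun n => f (z n))) (by
      rw [le_principal_iff, Ultrafilter.coe_map, Filter.mem_map]
      exact Eventually.of_forall hfz)
  have hw₀' : Tendsto (fun n => f (z n)) 𝓥 (𝓝 w₀) := hw₀
  have hxK : x ∈ K := by
    by_contra hxK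
    obtain ⟨n, hn⟩ := exists_notMem_lev hK hf hxK
    have h1 : ∀ᶠ m in (𝓥 : Filter ℕ), z m ∉ lev K n :=
      hx'.eventually ((isClosed_lev n).isOpen_compl.mem_nhds hn)
    have h2 : ∀ᶠ m in (𝓥 : Filter ℕ), n ≤ m := h𝓥le (eventually_ge_atTop n)
    obtain ⟨m, hm1, hm2⟩ := (h1.and h2).exists
    exact hm1 (lev_anti hm2 (nd_subset m g (hznd m)))
  have hw₀K : w₀ ∉ f '' Kᶜ :=
    cluster_notMem hK.isClosed.isOpen_compl hfnu.diff hfnu.inj (fun h => h hxK) hx'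
      (Eventually.of_forall hzK) hw₀'
  refine ⟨w₀, ?_, ?_, ?_⟩
  · refine ge_of_tendsto ((hw₀'.sub_const c).norm) (Eventually.of_forall hzf)
  · intro n
    obtain ⟨ξ, hξK, hξ⟩ := exists_node_val hK hf hG hlim hw₀K n
    obtain ⟨δ, hδ, hball⟩ := ball_in_node hK hf hG hlim hw₀K hξ
    refine ⟨δ, hδ, ?_⟩
    have h1 : ∀ᶠ j in (𝓥 : Filter ℕ), f (z j) ∈ ball w₀ δ :=
      hw₀'.eventually (ball_mem_nhds w₀ hδ)
    have h2 : ∀ᶠ j in (𝓥 : Filter ℕ), n ≤ j := h𝓥le (eventually_ge_atTop n)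
    obtain ⟨j, hj1, hj2⟩ := (h1.and h2).exists
    have h3 : ∀ᶠ S in (𝔊 : Filter Str), kF fk S (z j) ∈ ball w₀ δ :=
      (hlim.tendsto_at (hzK j)).eventually (isOpen_ball.mem_nhds hj1)
    have h4 : ∀ᶠ S : Str in (𝔊 : Filter Str), Disjoint ({z j} : Set ℂ) (⋃₀ S.1) :=
      hG.disj hK hf isCompact_singleton (disjoint_singleton_left.2 (hzK j))
    obtain ⟨S, ⟨hS1, hS2⟩, hS3⟩ := ((h3.and h4).and hball).exists
    have h5 : z j ∈ nd K n ξ := by
      by_contra h6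
      exact (kmap fk S).notMem_Tm (disjoint_singleton_left.1 hS2) h6 (hS3 hS1)
    have h6 : z j ∈ nd K n g := nd_anti hj2 (hznd j)
    have h7 : nd K n ξ = nd K n g := (nd_eq h5).symm.trans (nd_eq h6)
    rw [h7] at hball
    exact hball
  · intro τ hτ
    have h1 : ∀ᶠ j in (𝓥 : Filter ℕ), f (z j) ∈ ball w₀ τ :=
      hw₀'.eventually (ball_mem_nhds w₀ hτ)
    obtain ⟨j, hj⟩ := h1.exists
    refine ⟨z j, hzK j, ?_⟩
    rwa [mem_ball, dist_eq_norm] at hj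

end Vale.Agent.P116.PBC
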