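import Mathlib
import Vale.Agent.P116.PBC.GCF
import Vale.Agent.P116.PBC.Ann
import Vale.Agent.P116.PBC.W0
import Vale.Agent.P116.PBC.Two
import Vale.Agent.P116.PBC.Pack

/-!
The main estimate at a bad point.
-/

open Set Filter Topology Metric Bornology
open scoped Real

namespace Vale.Agent.P116.PBC

open H906

variable {K : Set ℂ} {g : ℂ} {n₀ : ℕ}

/-- smallness of disks near `w₀` -/
def SDisk (K : Set ℂ) (g : ℂ) : Prop := ∀ 𝔊 : Ultrafilter Str, Fine K (𝔊 : Filter Str) →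
  ∀ w₀ : ℂ, (∀ n, ∃ δ > 0, ∀ᶠ S in (𝔊 : Filter Str), ball w₀ δ ⊆ kT fk S (nd K n g)) →
  ∀ η > 0, ∃ ρ > 0, ∀ s₀, ∀ᶠ S in (𝔊 : Filter Str), ∀ P ∈ S.1, Disjoint P (nd K s₀ g) →
    η ≤ kr fk S P → Disjoint (closedBall (kc fk S P) (kr fk S P)) (ball w₀ ρ)

/-- the hole containing `g` -/
noncomputable def pg (g : ℂ) (S : Str) : Set ℂ :=
  open Classical in if h : ∃ P ∈ S.1, g ∈ P then h.choose else ∅

lemma pg_mem {S : Str} (h : ∃ P ∈ S.1, g ∈ P) : pg g S ∈ S.1 ∧ g ∈ pg g S := by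
  rw [pg, dif_pos h]
  exact h.choose_spec

lemma pg_eq {S : Str} {P : Set ℂ} (hP : P ∈ S.1) (hg : g ∈ P) : pg g S = P := by
  have h := pg_mem (S := S) ⟨P, hP, hg⟩
  by_contra hne
  exact disjoint_left.1 (S.2.disj _ h.1 P hP hne) h.2 hg

theorem main_g (hK : IsCompact K) (hf : H906.Full K) (hg : g ∈ K) (hSD : SDisk K g) :
    MainG K g n₀ := by
  classical
  intro 𝓗 V hV hNS 𝔊 hG hF φ hφ
  set Q := nd K n₀ g with hQ
  obtain ⟨R, hR, hRK⟩ := lev_bdd hK 0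
  set R' := R + 1 with hR'
  have hR'0 : 0 < R' := by positivity
  have hSR : ∀ᶠ S : Str in (𝔊 : Filter Str), (⋃₀ S.1 : Set ℂ) ⊆ closedBall (0:ℂ) R := by
    filter_upwards [hG 0] with S hS
    exact sUnion_subset fun P hP => (hS P hP).trans hRK
  -- the piece of `g`
  have hpg : ∀ᶠ S in (𝔊 : Filter Str), ∃ P ∈ S.1, g ∈ P := by
    have h1 : ∀ᶠ S in (𝔊 : Filter Str), ∃ P ∈ rs Q S.1, g ∈ P := by
      refine (hF (fun T => ∃ P ∈ T, g ∈ P)).2 (Eventually.of_forall fun m => ?_)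
      refine Eventually.of_forall fun H => ?_
      exact ⟨nd K m g, mem_Sm.2 (Or.inl rfl), mem_nd hg m⟩
    filter_upwards [h1] with S hS
    obtain ⟨P, hP, hgP⟩ := hS
    exact ⟨P, hP.1, hgP⟩
  set cS : Str → ℂ := fun S => kc fk S (pg g S) with hcS
  set rS : Str → ℝ := fun S => kr fk S (pg g S) with hrS
  have hr0 : ∀ᶠ S in (𝔊 : Filter Str), 0 ≤ rS S := by
    filter_upwards [hpg] with S hS
    exact ((kmap fk S).rpos _ (pg_mem hS).1).le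
  have hbd : ∀ᶠ S in (𝔊 : Filter Str), ‖cS S‖ ≤ 5 * R' ∧ rS S ≤ 5 * R' := by
    filter_upwards [hpg, hSR, hr0] with S hS hS2 hS3
    obtain ⟨hP1, hP2⟩ := pg_mem hS
    have h1 : kT fk S (ball 0 R') ⊆ closedBall 0 (5 * R') :=
      (kmap fk S).Tm_bound S.2 hR'0 (hS2.trans (closedBall_subset_closedBall (by linarith)))
    refine disk_bdd hS3 ?_
    intro w hw
    refine h1 (Or.inr (mem_iUnion₂.2 ⟨pg g S, ⟨hP1, g, ?_, hP2⟩, hw⟩))
    have := hS2 (subset_sUnion_of_mem hP1 hP2)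
    rw [mem_closedBall] at this
    rw [mem_ball]
    linarith
  obtain ⟨c, -, hc⟩ := (isCompact_closedBall (0 : ℂ) (5 * R')).ultrafilter_le_nhds
    (𝔊.map cS) (by
      rw [le_principal_iff, Ultrafilter.coe_map, Filter.mem_map]
      filter_upwards [hbd] with S hS
      rw [mem_preimage, mem_closedBall, dist_zero_right]
      exact hS.1)
  obtain ⟨r, -, hr⟩ := (isCompact_Icc (a := (0:ℝ)) (b := 5 * R')).ultrafilter_le_nhds
    (𝔊.map rS) (by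
      rw [le_principal_iff, Ultrafilter.coe_map, Filter.mem_map]
      filter_upwards [hbd, hr0] with S hS hS2
      exact ⟨hS2, hS.2⟩)
  have hc' : Tendsto cS 𝔊 (𝓝 c) := hc
  have hr' : Tendsto rS 𝔊 (𝓝 r) := hr
  refine goodAt_of_disks hK hf hG hφ hc' hr' hr0 ?_ ?_
  · filter_upwards [hpg] with S hS w hw
    rintro ⟨z, ⟨hz, -⟩, rfl⟩
    exact (kmap fk S).notMem hz (pg_mem hS).1 hw
  intro ε hε
  by_contra hbad
  rw [not_exists] at hbad
  obtain ⟨w₀, hw1, hw2, hw3⟩ := exists_w0 hK hf hG hg hφ hc' hr' hr0 hε hbad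
  obtain ⟨δ₁, hδ₁, hQev⟩ := hw2 n₀
  set δ₀ := min δ₁ (ε / 4) with hδ₀
  have hδ₀0 : 0 < δ₀ := lt_min hδ₁ (by positivity)
  obtain ⟨m, hm0, hm⟩ : ∃ m : ℕ, 0 < m ∧ π * (5 * R') ^ 2 + 2 * π + 36 + 1 ≤ ε / 4 * √m := by
    have h1 : Tendsto (fun m : ℕ => ε / 4 * √(m:ℝ)) atTop atTop :=
      (Real.tendsto_sqrt_atTop.comp tendsto_natCast_atTop_atTop).const_mul_atTop (by positivity)
    obtain ⟨m, hm1, hm2⟩ := ((h1.eventually_ge_atTop (π * (5 * R') ^ 2 + 2 * π + 36 + 1)).and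
      (eventually_gt_atTop 0)).exists
    exact ⟨m, hm2, hm1⟩
  obtain ⟨ρ, hρ1, hρ2, hρ3⟩ := choose_annuli (K := K) (𝔊 := 𝔊) (g := g) (w₀ := w₀)
    (fun η hη => hSD 𝔊 hG w₀ hw2 η hη) hδ₀0 m
  obtain ⟨k₀, hk₀, hmin⟩ := (Finset.range m).exists_min_image ρ ⟨0, by simpa using hm0⟩
  set τ := min (ρ k₀) (ε / 8) with hτ
  have hτ0 : 0 < τ := lt_min (hρ1 k₀).1 (by positivity)
  obtain ⟨z, hzK, hzw⟩ := hw3 τ hτ0
  obtain ⟨N, hN⟩ := exists_notMem_lev hK hf hzK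
  have hφz : ∀ᶠ S in (𝔊 : Filter Str), ‖kF fk S z - w₀‖ < τ := by
    have h1 : Tendsto (fun S => ‖kF fk S z - w₀‖) 𝔊 (𝓝 ‖φ z - w₀‖) :=
      ((hφ.tendsto_at hzK).sub_const w₀).norm
    exact h1.eventually (gt_mem_nhds hzw)
  have hzS : ∀ᶠ S : Str in (𝔊 : Filter Str), z ∉ (⋃₀ S.1 : Set ℂ) := by
    filter_upwards [hG N] with S hS
    rintro ⟨P, hP, hzP⟩
    exact hN (hS P hP hzP)
  have hQS : ∀ᶠ S in (𝔊 : Filter Str), ∀ P ∈ S.1, (P ∩ Q).Nonempty → P ⊆ Q := by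
    filter_upwards [hG n₀] with S hS P hP hne
    exact hole_in_node hK S hS hP (by rwa [inter_comm])
  -- the shallow structures
  have hA : ∀ᶠ S : Str in (𝔊 : Filter Str), ‖kF fk S z - w₀‖ < τ ∧
      (⋃₀ S.1 : Set ℂ) ⊆ closedBall (0:ℂ) R ∧ z ∉ (⋃₀ S.1 : Set ℂ) ∧ (∀ P ∈ S.1, (P ∩ Q).Nonempty → P ⊆ Q) ∧ ‖cS S - c‖ < ε / 8 ∧
      |rS S - r| < ε / 8 := by
    filter_upwards [hφz, hSR, hzS, hQS,
      hc'.eventually (ball_mem_nhds c (show 0 < ε / 8 by positivity)),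
      hr'.eventually (ball_mem_nhds r (show 0 < ε / 8 by positivity))] with S h1 h2 h3 h4 h5 h6
    refine ⟨h1, h2, h3, h4, ?_, ?_⟩
    · rwa [dist_eq_norm] at h5
    · rwa [Real.dist_eq] at h6
  set pA : Str → Prop := fun S => ‖kF fk S z - w₀‖ < τ ∧ ⋃₀ S.1 ⊆ closedBall (0:ℂ) R ∧
      z ∉ ⋃₀ S.1 ∧ (∀ P ∈ S.1, (P ∩ Q).Nonempty → P ⊆ Q) ∧ ‖cS S - c‖ < ε / 8 ∧
      |rS S - r| < ε / 8 with hpA
  have htr : ∀ p : Str → Prop, (∀ᶠ S in (𝔊 : Filter Str), p S) →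
      ∀ᶠ m in (V : Filter ℕ), ∀ᶠ H in (𝓗 : Filter (Set ℂ → Set (Set ℂ))),
        ∃ S, p S ∧ rs Q S.1 = Sm K g n₀ m H := by
    intro p hp
    refine (hF (fun T => ∃ S, p S ∧ rs Q S.1 = T)).1 ?_
    filter_upwards [hp] with S hS
    exact ⟨S, hS, rfl⟩
  obtain ⟨s₀, hs₀1, hs₀2⟩ := ((htr pA hA).and (hV (eventually_ge_atTop n₀))).exists
  set L := nd K s₀ g with hL
  have hLQ : L ⊆ Q := nd_anti hs₀2
  -- the deep structures
  set pB : Str → Prop := fun S => pA S ∧ ball w₀ δ₁ ⊆ kT fk S Q ∧ w₀ ∈ kT fk S L ∧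
    (∀ P ∈ S.1, Disjoint P L → ∀ k < m, ∀ l < m,
      (closedBall (kc fk S P) (kr fk S P) ∩ ann w₀ (ρ k)).Nonempty →
      (closedBall (kc fk S P) (kr fk S P) ∩ ann w₀ (ρ l)).Nonempty → k = l) with hpB
  have hB : ∀ᶠ S in (𝔊 : Filter Str), pB S := by
    obtain ⟨δ₂, hδ₂, hLev⟩ := hw2 s₀
    filter_upwards [hA, hQev, hLev, hρ3 s₀] with S h1 h2 h3 h4
    exact ⟨h1, h2, h3 (mem_ball_self hδ₂), h4⟩
  obtain ⟨s₁, hs₁1, hs₁2⟩ := ((htr pB hB).and (hV (eventually_ge_atTop s₀))).exists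
  obtain ⟨H, ⟨⟨S', hS'A, hS'⟩, ⟨S, hSB, hS⟩⟩, hH0, hH1⟩ :=
    ((hs₀1.and hs₁1).and ((hNS s₀).and (hNS s₁))).exists
  have hns₁ : n₀ ≤ s₁ := hs₀2.trans hs₁2
  have hLS' : L ∈ S'.1 := by
    have : L ∈ rs Q S'.1 := by
      rw [hS']
      exact mem_Sm.2 (Or.inl rfl)
    exact this.1
  have hPS : nd K s₁ g ∈ S.1 := by
    have : nd K s₁ g ∈ rs Q S.1 := by
      rw [hS]
      exact mem_Sm.2 (Or.inl rfl)
    exact this.1
  have hpgS' : pg g S' = L := pg_eq hLS' (mem_nd hg s₀)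
  have hpgS : pg g S = nd K s₁ g := pg_eq hPS (mem_nd hg s₁)
  obtain ⟨hA1, hA2, hA3, hA4, hA5, hA6⟩ := hS'A
  obtain ⟨⟨hB1, hB2, hB3, hB4, hB5, hB6⟩, hBQ, hBL, hBone⟩ := hSB
  -- pieces of the deep structure
  have hJ1 : ∀ P ∈ S.1, P ⊆ Q → P ∈ S'.1 ∧ Disjoint P L ∨ P ⊆ L := by
    intro P hP hPQ
    have h1 : P ∈ Sm K g n₀ s₁ H := by
      rw [← hS]
      exact ⟨hP, hPQ⟩
    rcases mem_Sm.1 h1 with h2 | ⟨T, hT, hPT⟩
    · right
      rw [h2]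
      exact nd_anti hs₁2
    · rcases sib_or (m := s₀) hT with h3 | h3
      · left
        constructor
        · have h4 : P ∈ rs Q S'.1 := by
            rw [hS']
            exact mem_Sm.2 (Or.inr ⟨T, h3, hPT⟩)
          exact h4.1
        · exact (sib_disj_nd hg h3).mono_left ((hH1 T hT).sub P hPT)
      · right
        exact ((hH1 T hT).sub P hPT).trans h3
  have hJ2 : ∀ P ∈ S'.1, P ⊆ Q → P ∈ S.1 ∨ P = L := by
    intro P hP hPQ
    have h1 : P ∈ Sm K g n₀ s₀ H := by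
      rw [← hS']
      exact ⟨hP, hPQ⟩
    rcases mem_Sm.1 h1 with h2 | ⟨T, hT, hPT⟩
    · exact Or.inr h2
    · left
      have h4 : P ∈ rs Q S.1 := by
        rw [hS]
        exact mem_Sm.2 (Or.inr ⟨T, sib_mono hs₁2 hT, hPT⟩)
      exact h4.1
  have hmap := kmap fk S
  have hQR : Q ⊆ ball 0 R' := by
    intro y hy
    have h1 : y ∈ lev K 0 := lev_anti (Nat.zero_le n₀) (nd_subset n₀ g hy)
    have h2 := hRK h1
    rw [mem_closedBall] at h2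
    rw [mem_ball]
    linarith
  have hR2 : closedBall (0:ℂ) R ⊆ closedBall 0 R' := closedBall_subset_closedBall (by linarith)
  have h2ρ : ∀ k, ball w₀ (2 * ρ k) ⊆ ball w₀ δ₀ := fun k => ball_subset_ball (hρ1 k).2
  have hfin := two fk S S' (Q := Q) (L := L) hR'0 hQR (hB2.trans hR2) (hA2.trans hR2) hB4 hA4 hLS'
    (fun P hP hPQ => (hJ1 P hP hPQ).imp And.left id) hJ2 (g := g) (mem_nd hg s₀) hPS
    (mem_nd hg s₁) hBL hm0 (fun k _ => (hρ1 k).1) (fun k _ l _ hkl => hρ2 k l hkl)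
    (fun k _ => (h2ρ k).trans ((ball_subset_ball (min_le_left _ _)).trans hBQ))
    (fun k _ => by
      rw [disjoint_left]
      intro w hw hw2
      have h3 : dist w w₀ < ε / 4 := by
        have := h2ρ k hw2
        rw [mem_ball] at this
        exact this.trans_le (min_le_right _ _)
      have h4 : kc fk S (nd K s₁ g) = cS S := by rw [hcS]; simp only; rw [hpgS]
      have h5 : kr fk S (nd K s₁ g) = rS S := by rw [hrS]; simp only; rw [hpgS]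
      rw [mem_closedBall, h4, h5] at hw
      rw [dist_eq_norm] at hw h3
      have h6 : ‖w₀ - c‖ ≤ ‖w - w₀‖ + ‖w - cS S‖ + ‖cS S - c‖ := by
        have e : w₀ - c = -(w - w₀) + (w - cS S) + (cS S - c) := by ring
        rw [e]
        refine (norm_add₃_le).trans ?_
        rw [norm_neg]
      rw [abs_lt] at hB6
      linarith [hB6.2])
    (fun P hP hPQ hPL k hk l hl h1 h2 => by
      rcases hJ1 P hP hPQ with ⟨-, h3⟩ | h3
      · exact hBone P hP h3 k hk l hl h1 h2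
      · exact absurd h3 hPL)
    (fun J hJ k _ => pack_round J (fun P hP => hmap.rpos P (hJ P hP))
      (fun P hP P' hP' hne => hmap.disj P (hJ P hP) P' (hJ P' hP') hne) w₀ (hρ1 k).1)
    (ε := ε / 4) (by positivity) hm hB3 hA3 (z := z)
    (fun k hk => by
      rw [mem_ball, dist_eq_norm]
      exact hB1.trans_le ((min_le_left _ _).trans (hmin k (by simpa using hk))))
  have h4 : kc fk S' L = cS S' := by rw [hcS]; simp only; rw [hpgS']
  have h5 : kr fk S' L = rS S' := by rw [hrS]; simp only; rw [hpgS']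
  rw [mem_closedBall, h4, h5, dist_eq_norm] at hfin
  have h6 : ‖w₀ - c‖ ≤ ‖kF fk S' z - w₀‖ + ‖kF fk S' z - cS S'‖ + ‖cS S' - c‖ := by
    have e : w₀ - c = -(kF fk S' z - w₀) + (kF fk S' z - cS S') + (cS S' - c) := by ring
    rw [e]
    refine (norm_add₃_le).trans ?_
    rw [norm_neg]
  have h7 : τ ≤ ε / 8 := min_le_right _ _
  rw [abs_lt] at hA6
  linarith [hA6.2]

end Vale.Agent.P116.PBC
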