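import Mathlib
import Vale.Agent.P116.PBC.Def

/-!
Large disks away from `g` do not come near `w₀`.
-/

open Set Filter Topology Metric Bornology MeasureTheory
open scoped Real

namespace Vale.Agent.P116.PBC

open H906

variable {K : Set ℂ} {𝔊 : Ultrafilter Str}

/-- boundedly many disjoint disks of radius at least `η` -/
lemma card_disks {T : Finset (Set ℂ)} {c : Set ℂ → ℂ} {r : Set ℂ → ℝ} {η M : ℝ} (hη : 0 < η)
    (hM : 0 ≤ M) (hr : ∀ P ∈ T, η ≤ r P)
    (hd : ∀ P ∈ T, ∀ P' ∈ T, P ≠ P' → Disjoint (closedBall (c P) (r P)) (closedBall (c P') (r P')))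
    (hb : ∀ P ∈ T, closedBall (c P) (r P) ⊆ closedBall 0 M) : (T.card : ℝ) * η ^ 2 ≤ M ^ 2 := by
  have hvol : ∀ (a : ℂ) {s : ℝ}, 0 ≤ s → volume.real (closedBall a s) = π * s ^ 2 := by
    intro a s hs
    rw [measureReal_def, Complex.volume_closedBall, ENNReal.toReal_mul, ENNReal.toReal_pow,
      ENNReal.toReal_ofReal hs, mul_comm]
    rfl
  have h1 : ∑ P ∈ T, volume.real (closedBall (c P) (r P)) =
      volume.real (⋃ P ∈ T, closedBall (c P) (r P)) := by
    rw [measureReal_biUnion_finset (fun P hP P' hP' hne => hd P hP P' hP' hne)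
      (fun P _ => measurableSet_closedBall)
      (fun P _ => (isCompact_closedBall _ _).measure_lt_top.ne)]
  have h2 : volume.real (⋃ P ∈ T, closedBall (c P) (r P)) ≤ volume.real (closedBall (0:ℂ) M) :=
    measureReal_mono (iUnion₂_subset hb) (isCompact_closedBall _ _).measure_lt_top.ne
  have h3 : ∑ P ∈ T, π * η ^ 2 ≤ ∑ P ∈ T, volume.real (closedBall (c P) (r P)) := by
    refine Finset.sum_le_sum fun P hP => ?_
    rw [hvol _ (hη.le.trans (hr P hP))]
    have := hr P hP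
    have h4 : η ^ 2 ≤ r P ^ 2 := by nlinarith
    exact mul_le_mul_of_nonneg_left h4 Real.pi_pos.le
  rw [Finset.sum_const, nsmul_eq_mul] at h3
  rw [h1] at h3
  have h5 := h3.trans h2
  rw [hvol 0 hM] at h5
  have hpi := Real.pi_pos
  have h6 : π * ((T.card : ℝ) * η ^ 2) ≤ π * M ^ 2 := by linarith
  exact le_of_mul_le_mul_left h6 hpi

theorem small_disks (hK : IsCompact K) (_hf : H906.Full K) (hG : Fine K (𝔊 : Filter Str)) {g : ℂ}
    (_hg : g ∈ K) {w₀ : ℂ}
    (hw : ∀ n, ∃ δ > 0, ∀ᶠ S in (𝔊 : Filter Str), ball w₀ δ ⊆ kT fk S (nd K n g))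
    {η : ℝ} (hη : 0 < η) :
    ∃ ρ > 0, ∀ s₀, ∀ᶠ S in (𝔊 : Filter Str), ∀ P ∈ S.1, Disjoint P (nd K s₀ g) →
      η ≤ kr fk S P → Disjoint (closedBall (kc fk S P) (kr fk S P)) (ball w₀ ρ) := by
  classical
  by_contra hcon
  push Not at hcon
  obtain ⟨R, hR, hRK⟩ := lev_bdd hK 0
  have hind : ∀ N : ℕ, ∃ s, ∀ᶠ S in (𝔊 : Filter Str), ∃ T : Finset (Set ℂ), T.card = N ∧
      ∀ P ∈ T, P ∈ S.1 ∧ Disjoint P (nd K s g) ∧ η ≤ kr fk S P := by
    intro N
    induction N with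
    | zero =>
      exact ⟨0, Eventually.of_forall fun S => ⟨∅, Finset.card_empty, fun P hP => by simp at hP⟩⟩
    | succ N ih =>
      obtain ⟨s, hs⟩ := ih
      obtain ⟨δ, hδ, hδS⟩ := hw s
      obtain ⟨s', hs'⟩ := hcon δ hδ
      refine ⟨max s s', ?_⟩
      filter_upwards [hs, hδS, hs'] with S h1 h2 h3
      obtain ⟨T, hT1, hT2⟩ := h1
      obtain ⟨P, hP, hPd, hPη, hPm⟩ := h3
      rw [not_disjoint_iff] at hPm
      obtain ⟨w, hw1, hw2⟩ := hPm
      have hmap := kmap fk S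
      have hmeet : (nd K s g ∩ P).Nonempty := by
        rcases h2 hw2 with ⟨z, ⟨-, hz⟩, rfl⟩ | hw3
        · exact absurd hw1 (hmap.notMem hz hP)
        · obtain ⟨P', ⟨hP', hne⟩, hwP'⟩ := mem_iUnion₂.1 hw3
          have : P = P' := by
            by_contra hne'
            exact disjoint_left.1 (hmap.disj P hP P' hP' hne') hw1 hwP'
          rw [this]
          exact hne
      have hPT : P ∉ T := by
        intro hPT
        obtain ⟨z, hz1, hz2⟩ := hmeet
        exact disjoint_left.1 (hT2 P hPT).2.1 hz2 hz1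
      refine ⟨insert P T, by rw [Finset.card_insert_of_notMem hPT, hT1], fun P' hP' => ?_⟩
      rcases Finset.mem_insert.1 hP' with rfl | hP'
      · exact ⟨hP, hPd.mono_right (nd_anti (le_max_right s s')), hPη⟩
      · obtain ⟨h4, h5, h6⟩ := hT2 P' hP'
        exact ⟨h4, h5.mono_right (nd_anti (le_max_left s s')), h6⟩
  obtain ⟨N, hN⟩ := exists_nat_gt ((5 * (R + 1)) ^ 2 / η ^ 2)
  obtain ⟨s, hs⟩ := hind N
  obtain ⟨S, ⟨T, hT1, hT2⟩, hS⟩ := (hs.and (hG 0)).exists
  have hmap := kmap fk S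
  have hSR : (⋃₀ S.1 : Set ℂ) ⊆ closedBall 0 (R + 1) :=
    (sUnion_subset fun P hP => (hS P hP).trans hRK).trans
      (closedBall_subset_closedBall (by linarith))
  have h1 : kT fk S (ball 0 (R + 1)) ⊆ closedBall 0 (5 * (R + 1)) :=
    hmap.Tm_bound S.2 (by positivity) hSR
  have h2 := card_disks (T := T) (c := kc fk S) (r := kr fk S) (M := 5 * (R + 1)) hη
    (by positivity) (fun P hP => (hT2 P hP).2.2)
    (fun P hP P' hP' hne => hmap.disj P (hT2 P hP).1 P' (hT2 P' hP').1 hne)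
    (fun P hP => by
      intro w hw
      obtain ⟨y, hy⟩ := (S.2.conn P (hT2 P hP).1).nonempty
      refine h1 (Or.inr (mem_iUnion₂.2 ⟨P, ⟨(hT2 P hP).1, y, ?_, hy⟩, hw⟩))
      have := hRK (hS P (hT2 P hP).1 hy)
      rw [mem_closedBall] at this
      rw [mem_ball]
      linarith)
  rw [hT1] at h2
  rw [div_lt_iff₀ (by positivity)] at hN
  linarith

end Vale.Agent.P116.PBC
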