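import Vale.Agent.P116.H906.Loc

/-!
P116, PBC+, blocks TR and ID: goodness of a point depends only on the limit map, and the limit map
is determined by its values on a circle around `K`.
-/

open Set Filter Topology Metric Bornology

namespace Vale.Agent.P116.PBC

open H906

variable {h : FK} {K : Set ℂ} {𝔊 𝔊' : Ultrafilter Str} {g : ℂ → ℂ}

/-- **block TR**: goodness depends only on the limit map -/
theorem goodAt_of_lim (hK : IsCompact K) (hf : Full K) (hG : Fine K (𝔊 : Filter Str))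
    (hG' : Fine K (𝔊' : Filter Str))
    (hg : TendstoLocallyUniformlyOn (kF h) g (𝔊 : Filter Str) Kᶜ)
    (hg' : TendstoLocallyUniformlyOn (kF h) g (𝔊' : Filter Str) Kᶜ) {x : ℂ}
    (hgood : GoodAt h K (𝔊 : Filter Str) x) : GoodAt h K (𝔊' : Filter Str) x := by
  obtain ⟨c, r, hr, h1, h2⟩ := hgood
  refine ⟨c, r, hr, fun ε hε => ?_, fun z hz => ?_⟩
  · obtain ⟨n, hn⟩ := h1 (ε / 2) (by positivity)
    refine ⟨n, ?_⟩
    set E := frontier (nd K n x) with hE
    have hEK : Disjoint E K := frontier_nd_disjoint n x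
    have hEc : IsCompact E := (isCompact_nd hK n x).of_isClosed_subset isClosed_frontier
      (isCompact_nd hK n x).isClosed.frontier_subset
    have hgE : ∀ z ∈ E, g z ∈ closedBall c (r + ε / 2) := by
      intro z hz
      have hzK : z ∈ Kᶜ := disjoint_left.1 hEK hz
      refine isClosed_closedBall.mem_of_tendsto (hg.tendsto_at hzK) ?_
      filter_upwards [hn, hG.disj hK hf hEc hEK] with S hS hS2
      refine hS (Or.inl ⟨z, ⟨?_, ?_⟩, rfl⟩)
      · exact (isCompact_nd hK n x).isClosed.frontier_subset hz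
      · exact disjoint_left.1 hS2 hz
    have hu : TendstoUniformlyOn (kF h) g (𝔊' : Filter Str) E :=
      (tendstoLocallyUniformlyOn_iff_forall_isCompact hK.isClosed.isOpen_compl).1 hg' E
        (disjoint_left.1 hEK) hEc
    filter_upwards [Metric.tendstoUniformlyOn_iff.1 hu (ε / 2) (by positivity),
      hG'.disj hK hf hEc hEK] with S hS hS2
    refine (kmap h S).Tm_subset_closedBall S.2 (isCompact_nd hK n x).isBounded (by positivity) ?_
    rintro w (⟨z, ⟨hz, -⟩, rfl⟩ | hw)
    · have a1 := hS z hz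
      have a2 := hgE z hz
      rw [mem_closedBall] at a2 ⊢
      have a3 := dist_triangle (kF h S z) (g z) c
      rw [dist_comm] at a1
      linarith
    · obtain ⟨P, ⟨hP, z, hz, hzP⟩, -⟩ := mem_iUnion₂.1 hw
      exact absurd ⟨P, hP, hzP⟩ (disjoint_left.1 hS2 hz)
  · obtain ⟨δ, hδ, hev⟩ := h2 z hz
    have a1 : r + δ ≤ ‖g z - c‖ :=
      ge_of_tendsto ((hg.tendsto_at hz).sub_const c).norm (hev.mono fun S hS => hS.le)
    exact ⟨δ / 2, by positivity,
      (((hg'.tendsto_at hz).sub_const c).norm).eventually (lt_mem_nhds (by linarith))⟩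

/-- analytic functions which agree on a circle -/
lemma eqOn_of_circle (hK : IsCompact K) (hf : Full K) {ρ : ℝ} (hρ : 0 < ρ)
    (hρK : sphere (0 : ℂ) ρ ⊆ Kᶜ) {g g' : ℂ → ℂ} (hd : DifferentiableOn ℂ g Kᶜ)
    (hd' : DifferentiableOn ℂ g' Kᶜ) (he : ∀ z ∈ sphere (0 : ℂ) ρ, g z = g' z) :
    EqOn g g' Kᶜ := by
  have ho : IsOpen Kᶜ := hK.isClosed.isOpen_compl
  have hz0 : (ρ : ℂ) ∈ sphere (0 : ℂ) ρ := by
    rw [mem_sphere_zero_iff_norm, Complex.norm_real, Real.norm_of_nonneg hρ.le]
  refine (hd.analyticOnNhd ho).eqOn_of_preconnected_of_frequently_eq (hd'.analyticOnNhd ho)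
    (hf.isPreconnected_compl hK.isBounded) (hρK hz0) ?_
  have hρ0 : (ρ : ℂ) ≠ 0 := by exact_mod_cast hρ.ne'
  have ht : Tendsto (fun t : ℝ => (ρ : ℂ) * Complex.exp (t * Complex.I)) (𝓝[>] (0 : ℝ))
      (𝓝[≠] (ρ : ℂ)) := by
    rw [tendsto_nhdsWithin_iff]
    constructor
    · have h1 : ContinuousAt (fun t : ℝ => (ρ : ℂ) * Complex.exp (t * Complex.I)) 0 := by fun_prop
      have h2 := h1.tendsto
      simp only [Complex.ofReal_zero, zero_mul, Complex.exp_zero, mul_one] at h2
      exact h2.mono_left nhdsWithin_le_nhds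
    · have h3 : Ioo (0 : ℝ) (2 * Real.pi) ∈ 𝓝[>] (0 : ℝ) :=
        Ioo_mem_nhdsGT (by positivity)
      filter_upwards [h3] with t ht hcon
      have h4 : Complex.exp (t * Complex.I) = 1 := mul_left_cancel₀ hρ0 (by rw [hcon, mul_one])
      obtain ⟨n, hn⟩ := Complex.exp_eq_one_iff.1 h4
      have h5 : ((t : ℂ) - n * (2 * Real.pi)) * Complex.I = 0 := by linear_combination hn
      have h6 := (mul_eq_zero.1 h5).resolve_right Complex.I_ne_zero
      have h7 : t = n * (2 * Real.pi) := by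
        have : (t : ℂ) = ((n * (2 * Real.pi) : ℝ) : ℂ) := by
          push_cast
          exact sub_eq_zero.1 h6
        exact_mod_cast this
      have h8 : (0 : ℝ) < n := by
        by_contra hc
        have := mul_nonpos_of_nonpos_of_nonneg (not_lt.1 hc) (show 0 ≤ 2 * Real.pi by positivity)
        linarith [ht.1]
      have h9 : (n : ℝ) < 1 := by
        by_contra hc
        have := mul_le_mul_of_nonneg_right (not_lt.1 hc) (show 0 ≤ 2 * Real.pi by positivity)
        linarith [ht.2]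
      have h10 : (0 : ℤ) < n := by exact_mod_cast h8
      have h11 : n < (1 : ℤ) := by exact_mod_cast h9
      omega
  refine ht.frequently (Eventually.frequently (Eventually.of_forall fun t => he _ ?_))
  rw [mem_sphere_zero_iff_norm, norm_mul, Complex.norm_exp_ofReal_mul_I, mul_one,
    Complex.norm_real, Real.norm_of_nonneg hρ.le]

/-- **block ID**: the limit map is determined by its values on a circle -/
theorem lim_of_circle (hK : IsCompact K) (hf : Full K) (hG : Fine K (𝔊 : Filter Str))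
    (hG' : Fine K (𝔊' : Filter Str)) {ρ : ℝ} (hρ : 0 < ρ) (hρK : sphere (0 : ℂ) ρ ⊆ Kᶜ)
    (hg : TendstoLocallyUniformlyOn (kF h) g (𝔊 : Filter Str) Kᶜ)
    (hlim : ∀ z ∈ sphere (0 : ℂ) ρ, Tendsto (fun S => kF h S z) 𝔊' (𝓝 (g z))) :
    TendstoLocallyUniformlyOn (kF h) g (𝔊' : Filter Str) Kᶜ := by
  obtain ⟨R, hR, hRK⟩ := lev_bdd hK 0
  obtain ⟨g', hg'⟩ := (hG'.exh (h := h) hK hf hR hRK).exists_lim
  have hd := (hG.exh (h := h) hK hf hR hRK).lim_diff hg
  have hd' := (hG'.exh (h := h) hK hf hR hRK).lim_diff hg'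
  have he : EqOn g g' Kᶜ := eqOn_of_circle hK hf hρ hρK hd hd' fun z hz =>
    tendsto_nhds_unique (hlim z hz) (hg'.tendsto_at (hρK hz))
  exact hg'.congr_right he.symm

end Vale.Agent.P116.PBC
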