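import Vale.Agent.P116.H906.Nodes

/-!
P116, block BAIRE: if the nodes disjoint from `B` are good, a node all of whose children are good is
good, and a node is good as soon as all its subnodes missing one component are good, then all nodes
are good, provided that `B` is closed, saturated and has only countably many components.
-/

open Set Filter Topology Metric Bornology

namespace Vale.Agent.P116.PBC

open H906

variable {K : Set ℂ}

lemma conn_eq {x y : ℂ} (h : y ∈ connectedComponentIn K x) :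
    connectedComponentIn K y = connectedComponentIn K x := (connectedComponentIn_eq h).symm

lemma conn_subset_nd (n : ℕ) (x : ℂ) : connectedComponentIn K x ⊆ nd K n x :=
  connectedComponentIn_mono _ (subset_lev n)

/-- hereditarily good from level `n` on -/
def HG (K : Set ℂ) (Gd : Set ℂ → Prop) (n : ℕ) (x : ℂ) : Prop :=
  ∀ m ≥ n, ∀ y ∈ K, y ∈ nd K n x → Gd (nd K m y)

lemma HG.congr {Gd : Set ℂ → Prop} {n : ℕ} {x y : ℂ} (h : nd K n y = nd K n x)
    (hx : HG K Gd n x) : HG K Gd n y := fun m hm z hz hzy => hx m hm z hz (h ▸ hzy)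

/-- compactness (König): a node without bad points is hereditarily good -/
lemma hg_of_forall (hK : IsCompact K) {Gd : Set ℂ → Prop}
    (hb : ∀ n, ∀ x ∈ K, (∀ y ∈ K, y ∈ nd K n x → Gd (nd K (n+1) y)) → Gd (nd K n x))
    {n : ℕ} {x : ℂ} (h : ∀ y ∈ K, y ∈ nd K n x → ∃ N, HG K Gd N y) : HG K Gd n x := by
  have hcomp : IsCompact (K ∩ nd K n x) := hK.inter (isCompact_nd hK n x)
  have h1 : ∃ M, ∀ m ≥ M, ∀ y ∈ K ∩ nd K n x, Gd (nd K m y) := by
    refine hcomp.induction_on (p := fun s => ∃ M, ∀ m ≥ M, ∀ y ∈ s, Gd (nd K m y))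
      ⟨0, by simp⟩ ?_ ?_ ?_
    · rintro s t hst ⟨M, hM⟩
      exact ⟨M, fun m hm y hy => hM m hm y (hst hy)⟩
    · rintro s t ⟨M, hM⟩ ⟨M', hM'⟩
      refine ⟨max M M', fun m hm y hy => ?_⟩
      rcases hy with hy | hy
      · exact hM m ((le_max_left _ _).trans hm) y hy
      · exact hM' m ((le_max_right _ _).trans hm) y hy
    · rintro y ⟨hyK, hyn⟩
      obtain ⟨N, hN⟩ := h y hyK hyn
      refine ⟨K ∩ ball y (lr N), ?_, N, fun m hm z hz => ?_⟩
      · have h2 : ball y (lr N) ∈ 𝓝 y := ball_mem_nhds y (lr_pos N)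
        have h3 := inter_mem_nhdsWithin (K ∩ nd K n x) h2
        refine Filter.mem_of_superset h3 ?_
        rintro z ⟨⟨hz1, -⟩, hz2⟩
        exact ⟨hz1, hz2⟩
      · exact hN m hm z hz.1 (closedBall_subset_nd hyK (mem_nd hyK N)
          (ball_subset_closedBall hz.2))
  obtain ⟨M, hM⟩ := h1
  have key : ∀ k m, n ≤ m → M ≤ m + k → ∀ y ∈ K, y ∈ nd K n x → Gd (nd K m y) := by
    intro k
    induction k with
    | zero => exact fun m _ hm y hy hyn => hM m (by simpa using hm) y ⟨hy, hyn⟩
    | succ k ih =>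
      intro m hnm hm y hy hyn
      refine hb m y hy fun z hz hzy => ?_
      refine ih (m + 1) (by omega) (by omega) z hz ?_
      have h2 : nd K n y = nd K n x := nd_eq hyn
      exact h2 ▸ nd_anti hnm hzy
  exact fun m hm y hy hyn => key M m hm (by omega) y hy hyn

/-- nested nodes have a common point of `K` -/
lemma exists_mem_nested (hK : IsCompact K) {N : ℕ → ℕ} {x : ℕ → ℂ} (hx : ∀ i, x i ∈ K)
    (hsub : ∀ i, nd K (N (i+1)) (x (i+1)) ⊆ nd K (N i) (x i)) :
    ∃ z ∈ K, ∀ i, z ∈ nd K (N i) (x i) := by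
  have h := IsCompact.nonempty_iInter_of_sequence_nonempty_isCompact_isClosed
    (fun i => K ∩ nd K (N i) (x i)) (fun i => inter_subset_inter_right K (hsub i))
    (fun i => ⟨x i, hx i, mem_nd (hx i) _⟩) (hK.inter (isCompact_nd hK _ _))
    (fun i => (hK.inter (isCompact_nd hK _ _)).isClosed)
  obtain ⟨z, hz⟩ := h
  rw [mem_iInter] at hz
  exact ⟨z, (hz 0).1, fun i => (hz i).2⟩

theorem baire_good {K B : Set ℂ} (hK : IsCompact K) (hf : H906.Full K) (hB : IsClosed B)
    (hBK : B ⊆ K) (hsat : ∀ x ∈ B, connectedComponentIn K x ⊆ B)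
    (hcount : (connectedComponentIn K '' B).Countable) (Gd : Set ℂ → Prop)
    (ha : ∀ n, ∀ x ∈ K, Disjoint (H906.nd K n x) B → Gd (H906.nd K n x))
    (hb : ∀ n, ∀ x ∈ K, (∀ y ∈ K, y ∈ H906.nd K n x → Gd (H906.nd K (n+1) y)) →
      Gd (H906.nd K n x))
    (hc : ∀ g ∈ K, ∀ n₀, (∀ m ≥ n₀, ∀ y ∈ K, y ∈ H906.nd K n₀ g → g ∉ H906.nd K m y →
      Gd (H906.nd K m y)) → Gd (H906.nd K n₀ g)) :
    ∀ n, ∀ x ∈ K, Gd (H906.nd K n x) := by
  classical
  set Z : Set ℂ := {x | x ∈ K ∧ ∀ n, ¬ HG K Gd n x} with hZ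
  -- the bad points are in `B`
  have hZB : Z ⊆ B := by
    rintro x ⟨hxK, hx⟩
    by_contra hxB
    have h1 : connectedComponentIn K x ⊆ Bᶜ := by
      intro z hz hzB
      refine hxB (hsat z hzB ?_)
      rw [conn_eq hz]
      exact mem_connectedComponentIn hxK
    obtain ⟨n, hn⟩ := exists_nd_subset hK hf hxK hB.isOpen_compl h1
    refine hx n fun m hm y hy hyn => ha m y hy ?_
    refine (disjoint_compl_left (a := B)).mono_left ?_
    refine (nd_anti hm).trans ?_
    rw [nd_eq hyn]
    exact hn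
  -- non bad points
  have hnot : ∀ x ∈ K, x ∉ Z → ∃ n, HG K Gd n x := by
    intro x hxK hx
    by_contra hcon
    push Not at hcon
    exact hx ⟨hxK, hcon⟩
  have hfree : ∀ n, ∀ x ∈ K, (∀ y ∈ K, y ∈ nd K n x → y ∉ Z) → HG K Gd n x := fun n x hx h =>
    hg_of_forall hK hb fun y hy hyn => hnot y hy (h y hy hyn)
  -- the bad set is empty
  have hZe : Z = ∅ := by
    by_contra hne
    rw [← ne_eq, ← nonempty_iff_ne_empty] at hne
    obtain ⟨x₀, hx₀⟩ := hne
    -- enumeration of the components of the bad set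
    have hcZ : (connectedComponentIn K '' Z).Countable := hcount.mono (image_mono hZB)
    obtain ⟨C, hC⟩ := hcZ.exists_eq_range ⟨_, x₀, hx₀, rfl⟩
    -- an isolated component
    have hiso : ∃ g ∈ Z, ∃ n, ∀ y ∈ Z, y ∈ nd K n g → y ∈ connectedComponentIn K g := by
      by_contra hcon
      push Not at hcon
      have step : ∀ p : ℕ × Z, ∀ i : ℕ, ∃ q : ℕ × Z, p.1 < q.1 ∧
          nd K q.1 q.2 ⊆ nd K p.1 p.2 ∧ Disjoint (nd K q.1 q.2) (C i) := by
        rintro ⟨n, x, hx⟩ i
        -- a point `y` of `Z` in the node, with another component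
        have h1 : ∃ y ∈ Z, y ∈ nd K n x ∧ y ∉ C i := by
          by_cases hxi : x ∈ C i
          · obtain ⟨y, hy, hyn, hyc⟩ := hcon x hx n
            refine ⟨y, hy, hyn, fun hyi => hyc ?_⟩
            obtain ⟨z, hz, hzi⟩ : C i ∈ connectedComponentIn K '' Z := hC ▸ mem_range_self i
            rw [← hzi] at hxi hyi
            rw [conn_eq hxi]
            exact hyi
          · exact ⟨x, hx, mem_nd hx.1 n, hxi⟩
        obtain ⟨y, hy, hyn, hyi⟩ := h1
        obtain ⟨z, hz, hzi⟩ : C i ∈ connectedComponentIn K '' Z := hC ▸ mem_range_self i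
        have hCc : IsClosed (C i) := by rw [← hzi]; exact (isCompact_comp hK z).isClosed
        have h2 : connectedComponentIn K y ⊆ (C i)ᶜ := by
          intro u hu hui
          rw [← hzi] at hui hyi
          apply hyi
          rw [← conn_eq hui, conn_eq hu]
          exact mem_connectedComponentIn hy.1
        obtain ⟨m, hm⟩ := exists_nd_subset hK hf hy.1 hCc.isOpen_compl h2
        refine ⟨⟨max m (n + 1), y, hy⟩, lt_of_lt_of_le (Nat.lt_succ_self n) (le_max_right _ _),
          ?_, ?_⟩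
        · show nd K (max m (n + 1)) y ⊆ nd K n x
          rw [← nd_eq hyn]
          exact nd_anti ((Nat.le_succ n).trans (le_max_right _ _))
        · show Disjoint (nd K (max m (n + 1)) y) (C i)
          refine (disjoint_compl_left (a := C i)).mono_left ?_
          exact (nd_anti (le_max_left _ _)).trans hm
      choose F hF1 hF2 hF3 using step
      set s : ℕ → ℕ × Z := fun i => Nat.rec ⟨0, x₀, hx₀⟩ (fun i p => F p i) i with hs
      have hsucc : ∀ i, s (i + 1) = F (s i) i := fun i => rfl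
      have hlev : ∀ i, i ≤ (s i).1 := by
        intro i
        induction i with
        | zero => exact Nat.zero_le _
        | succ i ih =>
          rw [hsucc]
          exact lt_of_le_of_lt ih (hF1 (s i) i)
      obtain ⟨z, hzK, hz⟩ := exists_mem_nested hK (N := fun i => (s i).1)
        (x := fun i => ((s i).2 : ℂ)) (fun i => (s i).2.2.1) (fun i => by
          rw [hsucc]; exact hF2 (s i) i)
      -- `z` is bad
      have hzZ : z ∈ Z := by
        by_contra hzZ
        obtain ⟨N, hN⟩ := hnot z hzK hzZ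
        have h1 : nd K (s N).1 z = nd K (s N).1 (s N).2 := nd_eq (hz N)
        have h2 : ((s N).2 : ℂ) ∈ nd K N z := by
          refine nd_anti (hlev N) ?_
          rw [h1]
          exact mem_nd (s N).2.2.1 _
        exact (s N).2.2.2 N (HG.congr (nd_eq h2) hN)
      obtain ⟨i, hi⟩ : connectedComponentIn K z ∈ range C := hC ▸ ⟨z, hzZ, rfl⟩
      have h1 := hz (i + 1)
      simp only [hsucc] at h1
      refine disjoint_left.1 (hF3 (s i) i) h1 ?_
      rw [hi]
      exact mem_connectedComponentIn hzK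
    obtain ⟨g, hg, n, hgn⟩ := hiso
    -- nodes missing `g`
    have h1 : ∀ m ≥ n, ∀ y ∈ K, y ∈ nd K n g → g ∉ nd K m y → Gd (nd K m y) := by
      intro m hm y hy hyn hgm
      refine hfree m y hy (fun z hz hzy hzZ => hgm ?_) m le_rfl y hy (mem_nd hy m)
      have h2 : z ∈ nd K n g := by
        rw [← nd_eq hyn]
        exact nd_anti hm hzy
      have h3 := hgn z hzZ h2
      rw [← nd_eq hzy]
      refine conn_subset_nd m z ?_
      rw [conn_eq h3]
      exact mem_connectedComponentIn hg.1
    have h2 : ∀ m ≥ n, Gd (nd K m g) := by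
      intro m hm
      refine hc g hg.1 m fun m' hm' y hy hyn hgm => ?_
      exact h1 m' (hm.trans hm') y hy (nd_anti hm hyn) hgm
    refine hg.2 n fun m hm y hy hyn => ?_
    by_cases hgm : g ∈ nd K m y
    · rw [← nd_eq hgm]
      exact h2 m hm
    · exact h1 m hm y hy hyn hgm
  intro n x hx
  exact hfree n x hx (fun y _ _ => by rw [hZe]; exact notMem_empty y) n le_rfl x hx (mem_nd hx n)

end Vale.Agent.P116.PBC
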