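import Vale.Agent.P116.PBC.Def

/-!
Nodes without exceptional components are good.
-/

open Set Filter Topology Metric Bornology

namespace Vale.Agent.P116.PBC

open H906

theorem ga {K B : Set ℂ} (hK : IsCompact K) (hf : H906.Full K)
    (hPB : ∀ x ∈ K, x ∉ B → H906.PB K x) {n : ℕ} {x : ℂ} (_hx : x ∈ K)
    (hd : Disjoint (H906.nd K n x) B) : GoodN K (H906.nd K n x) := by
  classical
  set Q := nd K n x with hQ
  -- the structures
  let C : Type := {P : Set ℂ // P ∈ comps K ∧ P.Nontrivial ∧ P ⊆ Q}
  let im : Finset C → Set (Set ℂ) := fun T => Subtype.val '' (T : Set C)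
  let U : Ultrafilter (Finset C) := Ultrafilter.of atTop
  have hU : (U : Filter (Finset C)) ≤ atTop := Ultrafilter.of_le atTop
  refine ⟨U.map im, ?_, ?_, ?_⟩
  · rw [Ultrafilter.coe_map, eventually_map]
    refine Eventually.of_forall fun T => ⟨?_, ?_, ?_, ?_⟩
    · exact T.finite_toSet.image _
    · rintro _ ⟨P, -, rfl⟩
      exact Or.inl ⟨P.2.1, P.2.2.1⟩
    · rintro _ ⟨P, -, rfl⟩ _ ⟨P', -, rfl⟩ hne
      rw [disjoint_left]
      intro z hz hz'
      exact hne ((comps_eq P.2.1 hz).trans (comps_eq P'.2.1 hz').symm)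
    · rintro _ ⟨P, -, rfl⟩
      exact P.2.2.2
  · intro m
    rw [Ultrafilter.coe_map, eventually_map]
    refine Eventually.of_forall fun T => ?_
    rintro _ ⟨P, -, rfl⟩
    obtain ⟨y, -, hy⟩ := P.2.1
    rw [← hy]
    exact (connectedComponentIn_subset _ _).trans (subset_lev m)
  · intro 𝔊 hG hF g hg y hy hyQ
    have hQy : nd K n y = Q := nd_eq hyQ
    have hcomp : connectedComponentIn K y ⊆ Q := by
      rw [← hQy]
      exact connectedComponentIn_mono _ (subset_lev n)
    have hpull : ∀ p : Set (Set ℂ) → Prop, (∀ᶠ T in (U : Filter (Finset C)), p (im T)) →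
        ∀ᶠ S in (𝔊 : Filter Str), p (rs Q S.1) := by
      intro p hp
      have h1 : ∀ᶠ S in ((U.map im : Ultrafilter (Set (Set ℂ))) : Filter (Set (Set ℂ))), p S := by
        rw [Ultrafilter.coe_map, eventually_map]
        exact hp
      rw [← hF, Ultrafilter.coe_map, eventually_map] at h1
      exact h1
    refine good_of_PB hK hf hG hg hy ?_ n ?_ ?_
    · intro z hz
      refine hPB z (connectedComponentIn_subset _ _ hz) ?_
      exact disjoint_left.1 hd (hcomp hz)
    · filter_upwards [hG n, hpull (fun S => ∀ P ∈ S, P ∈ comps K)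
        (Eventually.of_forall fun T => by
          rintro _ ⟨P, -, rfl⟩
          exact P.2.1)] with S hS1 hS2 P hP hne
      rw [inter_comm] at hne
      have h1 := hole_in_node hK S hS1 hP hne
      rw [hQy] at h1
      exact hS2 P ⟨hP, h1⟩
    · intro hnt
      have hmem : connectedComponentIn K y ∈ comps K := ⟨y, hy, rfl⟩
      have h1 : ∀ᶠ T in (U : Filter (Finset C)), connectedComponentIn K y ∈ im T := by
        apply hU
        filter_upwards [eventually_ge_atTop
          ({⟨connectedComponentIn K y, hmem, hnt, hcomp⟩} : Finset C)] with T hT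
        exact ⟨⟨connectedComponentIn K y, hmem, hnt, hcomp⟩,
          Finset.mem_coe.2 (hT (Finset.mem_singleton_self _)), rfl⟩
      filter_upwards [hpull (fun S => connectedComponentIn K y ∈ S) h1] with S hS
      exact hS.1

end Vale.Agent.P116.PBC
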