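import Vale.Agent.P116.PBC.Def

/-!
A node all of whose children are good is good.
-/

open Set Filter Topology Metric Bornology

namespace Vale.Agent.P116.PBC

open H906

lemma Pc.nonempty {K P : Set ℂ} (h : Pc K P) : P.Nonempty := by
  rcases h with h | ⟨n, x, hx, rfl⟩
  · exact h.2.nonempty
  · exact ⟨x, mem_nd hx n⟩

lemma nodes_disjoint {K R R' : Set ℂ} {n : ℕ} (hR : R ∈ nodes K n) (hR' : R' ∈ nodes K n)
    (hne : R ≠ R') : Disjoint R R' := by
  obtain ⟨y, -, rfl⟩ := hR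
  obtain ⟨y', -, rfl⟩ := hR'
  rw [disjoint_left]
  intro z hz hz'
  exact hne ((nd_eq hz).symm.trans (nd_eq hz'))

theorem gb {K : Set ℂ} (hK : IsCompact K) (_hf : H906.Full K) {n : ℕ} {x : ℂ} (_hx : x ∈ K)
    (h : ∀ y ∈ K, y ∈ H906.nd K n x → GoodN K (H906.nd K (n + 1) y)) :
    GoodN K (H906.nd K n x) := by
  classical
  set Q := nd K n x with hQ
  set C : Set (Set ℂ) := {R | R ∈ nodes K (n + 1) ∧ R ⊆ Q} with hC
  have hCfin : C.Finite := (finite_nodes hK (n + 1)).subset fun R hR => hR.1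
  have hgood : ∀ R : Set ℂ, ∃ F : Ultrafilter (Set (Set ℂ)), R ∈ C → GoodF K R F := by
    intro R
    by_cases hR : R ∈ C
    · obtain ⟨⟨y, hy, rfl⟩, hRQ⟩ := hR
      obtain ⟨F, hF⟩ := h y hy (hRQ (mem_nd hy _))
      exact ⟨F, fun _ => hF⟩
    · exact ⟨pure ∅, fun h => absurd h hR⟩
  choose F hF using hgood
  obtain ⟨𝓗, h𝓗⟩ := exists_coupling F
  have hpush : ∀ R ∈ C, ∀ p : Set (Set ℂ) → Prop,
      (∀ᶠ S in (F R : Filter (Set (Set ℂ))), p S) →
        ∀ᶠ H in (𝓗 : Filter (Set ℂ → Set (Set ℂ))), p (H R) := by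
    intro R _ p hp
    rw [← h𝓗 R, Ultrafilter.coe_map, eventually_map] at hp
    exact hp
  have hns : ∀ᶠ H in (𝓗 : Filter (Set ℂ → Set (Set ℂ))), ∀ R ∈ C, NS K R (H R) :=
    (hCfin.eventually_all).2 fun R hR => hpush R hR _ (hF R hR).ns
  refine ⟨𝓗.map (fun H => ⋃ R ∈ C, H R), ?_, ?_, ?_⟩
  · rw [Ultrafilter.coe_map, eventually_map]
    filter_upwards [hns] with H hH
    refine ⟨?_, ?_, ?_, ?_⟩
    · exact hCfin.biUnion fun R hR => (hH R hR).fin
    · intro P hP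
      obtain ⟨R, hR, hPR⟩ := mem_iUnion₂.1 hP
      exact (hH R hR).pc P hPR
    · intro P hP P' hP' hne
      obtain ⟨R, hR, hPR⟩ := mem_iUnion₂.1 hP
      obtain ⟨R', hR', hPR'⟩ := mem_iUnion₂.1 hP'
      by_cases hRR : R = R'
      · subst hRR
        exact (hH R hR).disj P hPR P' hPR' hne
      · exact (nodes_disjoint hR.1 hR'.1 hRR).mono ((hH R hR).sub P hPR)
          ((hH R' hR').sub P' hPR')
    · intro P hP
      obtain ⟨R, hR, hPR⟩ := mem_iUnion₂.1 hP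
      exact ((hH R hR).sub P hPR).trans hR.2
  · intro m
    rw [Ultrafilter.coe_map, eventually_map]
    have h1 : ∀ᶠ H in (𝓗 : Filter (Set ℂ → Set (Set ℂ))), ∀ R ∈ C, ∀ P ∈ H R, P ⊆ lev K m :=
      (hCfin.eventually_all).2 fun R hR => hpush R hR _ ((hF R hR).fine m)
    filter_upwards [h1] with H hH P hP
    obtain ⟨R, hR, hPR⟩ := mem_iUnion₂.1 hP
    exact hH R hR P hPR
  · intro 𝔊 hG hmap g hg y hy hyQ
    have hQy : nd K n y = Q := nd_eq hyQ
    set R := nd K (n + 1) y with hRdef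
    have hRQ : R ⊆ Q := by
      rw [← hQy]
      exact nd_anti (Nat.le_succ n)
    have hRC : R ∈ C := ⟨⟨y, hy, rfl⟩, hRQ⟩
    refine (hF R hRC).good 𝔊 hG ?_ g hg y hy (mem_nd hy _)
    have h2 : 𝔊.map (fun S => rs R S.1) = (𝔊.map (fun S => rs Q S.1)).map (rs R) := by
      rw [Ultrafilter.map_map]
      congr 1
      funext S
      exact (rs_rs hRQ S.1).symm
    rw [h2, hmap, Ultrafilter.map_map, ← h𝓗 R]
    apply Ultrafilter.coe_injective
    rw [Ultrafilter.coe_map, Ultrafilter.coe_map]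
    apply Filter.map_congr
    filter_upwards [hns] with H hH
    ext P
    constructor
    · rintro ⟨hP, hPR⟩
      obtain ⟨R', hR', hPR'⟩ := mem_iUnion₂.1 hP
      by_cases hRR : R' = R
      · exact hRR ▸ hPR'
      · exfalso
        obtain ⟨z, hz⟩ := ((hH R' hR').pc P hPR').nonempty
        exact disjoint_left.1 (nodes_disjoint hR'.1 hRC.1 hRR) ((hH R' hR').sub P hPR' hz)
          (hPR hz)
    · intro hP
      exact ⟨mem_iUnion₂.2 ⟨R, hRC, hP⟩, (hH R hRC).sub P hP⟩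

end Vale.Agent.P116.PBC
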