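import Vale.Agent.P116.PBC.Sat
import Vale.Agent.P116.FK.V

/-!
# Length-area with holes
-/

open Set Metric Filter Topology Bornology MeasureTheory
open scoped ENNReal Real

namespace Vale.Agent.P116.PBC

theorem ll_amgm (x y : ℝ≥0∞) {s : ℝ} (hs : 0 < s) :
    x * y ≤ ENNReal.ofReal (s / 2) * x ^ 2 + ENNReal.ofReal (1 / (2 * s)) * y ^ 2 := by
  rcases eq_or_ne x ⊤ with hx | hx
  · have : ENNReal.ofReal (s / 2) * x ^ 2 = ⊤ := by
      rw [hx, ENNReal.top_pow two_ne_zero, ENNReal.mul_top]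
      rw [ne_eq, ENNReal.ofReal_eq_zero, not_le]
      positivity
    rw [this]
    simp
  rcases eq_or_ne y ⊤ with hy | hy
  · have : ENNReal.ofReal (1 / (2 * s)) * y ^ 2 = ⊤ := by
      rw [hy, ENNReal.top_pow two_ne_zero, ENNReal.mul_top]
      rw [ne_eq, ENNReal.ofReal_eq_zero, not_le]
      positivity
    rw [this]
    simp
  rw [← ENNReal.ofReal_toReal hx, ← ENNReal.ofReal_toReal hy]
  have hx0 : 0 ≤ x.toReal := ENNReal.toReal_nonneg
  have hy0 : 0 ≤ y.toReal := ENNReal.toReal_nonneg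
  generalize x.toReal = a at hx0 ⊢
  generalize y.toReal = b at hy0 ⊢
  rw [← ENNReal.ofReal_mul hx0, ← ENNReal.ofReal_pow hx0, ← ENNReal.ofReal_pow hy0,
    ← ENNReal.ofReal_mul (by positivity), ← ENNReal.ofReal_mul (by positivity),
    ← ENNReal.ofReal_add (by positivity) (by positivity)]
  refine ENNReal.ofReal_le_ofReal ?_
  have h : s / 2 * a ^ 2 + 1 / (2 * s) * b ^ 2 - a * b = (s * a - b) ^ 2 / (2 * s) := by
    field_simp
    ring
  have h2 : 0 ≤ (s * a - b) ^ 2 / (2 * s) := by positivity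
  linarith

/-- The density `|h'|` on `O`. -/
noncomputable def dens (O : Set ℂ) (h : ℂ → ℂ) (z : ℂ) : ℝ≥0∞ :=
  O.indicator (fun z => ‖deriv h z‖ₑ) z

theorem measurable_dens {O : Set ℂ} (hO : IsOpen O) (h : ℂ → ℂ) : Measurable (dens O h) :=
  (measurable_deriv h).enorm.indicator hO.measurableSet

theorem lintegral_dens_sq {O : Set ℂ} (hO : IsOpen O) {h : ℂ → ℂ} (hh : DifferentiableOn ℂ h O)
    (hi : InjOn h O) : ∫⁻ z, dens O h z ^ 2 = volume (h '' O) := by
  rw [← FK.v_area hO hh hi, ← lintegral_indicator hO.measurableSet]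
  congr 1
  ext z
  unfold dens
  by_cases hz : z ∈ O
  · simp [hz]
  · simp [hz]

/-- The length of the image of `O ∩ sphere x ρ`. -/
noncomputable def len (O : Set ℂ) (h : ℂ → ℂ) (x : ℂ) (ρ : ℝ) : ℝ≥0∞ :=
  ∫⁻ θ in Ioo (-π) π, ENNReal.ofReal ρ * dens O h (circleMap x ρ θ)

/-- the image of the circle under the distance to a point is bounded by the length -/
theorem vol_dist_le_len {O : Set ℂ} (hO : IsOpen O) {h : ℂ → ℂ} (hh : DifferentiableOn ℂ h O)
    (x c : ℂ) {ρ : ℝ} (hρ : 0 < ρ) :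
    volume ((fun w => dist w c) '' (h '' (sphere x ρ ∩ O))) ≤ len O h x ρ := by
  set T : Set ℝ := {θ | circleMap x ρ θ ∈ O ∧ h (circleMap x ρ θ) ≠ c} ∩ Ioo (-π) π with hT
  have hcm : Continuous (circleMap x ρ) := continuous_circleMap x ρ
  have hTo : IsOpen T := by
    refine IsOpen.inter ?_ isOpen_Ioo
    have h1 : IsOpen {z | z ∈ O ∧ h z ≠ c} := by
      have := hh.continuousOn.isOpen_inter_preimage hO (isOpen_compl_singleton (x := c))
      exact this
    exact h1.preimage hcm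
  set g : ℝ → ℝ := fun θ => dist (h (circleMap x ρ θ)) c with hg
  -- derivative of `g`
  have hgd : ∀ θ ∈ T, ∃ g', HasDerivAt g g' θ ∧
      ENNReal.ofReal |g'| ≤ ENNReal.ofReal ρ * dens O h (circleMap x ρ θ) := by
    intro θ hθ
    have h1 : HasDerivAt h (deriv h (circleMap x ρ θ)) (circleMap x ρ θ) :=
      (hh.differentiableAt (hO.mem_nhds hθ.1.1)).hasDerivAt
    have h2 : HasDerivAt (fun θ => h (circleMap x ρ θ) - c)
        (deriv h (circleMap x ρ θ) * (circleMap 0 ρ θ * Complex.I)) θ := by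
      have := (h1.scomp θ (hasDerivAt_circleMap x ρ θ)).sub_const c
      refine this.congr_deriv ?_
      rw [smul_eq_mul]
      ring
    have h3 : DifferentiableAt ℝ (fun θ => ‖h (circleMap x ρ θ) - c‖) θ :=
      h2.differentiableAt.norm ℝ (sub_ne_zero.2 hθ.1.2)
    have h4 : g = fun θ => ‖h (circleMap x ρ θ) - c‖ := by
      funext θ
      rw [hg]
      simp only
      rw [dist_eq_norm]
    refine ⟨deriv g θ, by rw [h4]; exact h3.hasDerivAt, ?_⟩
    -- `|g'| ≤ ‖h'‖ ρ`
    have h5 : |deriv g θ| ≤ ‖deriv h (circleMap x ρ θ) * (circleMap 0 ρ θ * Complex.I)‖ := by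
      have h6 : HasDerivAt g (deriv g θ) θ := by rw [h4]; exact h3.hasDerivAt
      have h7 := h6.tendsto_slope.norm
      have h8 := h2.tendsto_slope.norm
      rw [← Real.norm_eq_abs]
      refine le_of_tendsto_of_tendsto h7 h8 ?_
      refine Eventually.of_forall fun θ' => ?_
      beta_reduce
      rw [slope_def_field, slope_def_module, norm_div, norm_smul, norm_inv, div_eq_inv_mul]
      refine mul_le_mul_of_nonneg_left ?_ (by positivity)
      rw [h4, Real.norm_eq_abs]
      exact abs_norm_sub_norm_le _ _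
    rw [norm_mul, norm_mul, Complex.norm_I, mul_one, norm_circleMap_zero, abs_of_pos hρ] at h5
    have h6 : dens O h (circleMap x ρ θ) = ENNReal.ofReal ‖deriv h (circleMap x ρ θ)‖ := by
      rw [dens, indicator_of_mem hθ.1.1, ofReal_norm]
    rw [h6, ← ENNReal.ofReal_mul hρ.le]
    refine ENNReal.ofReal_le_ofReal ?_
    rw [mul_comm]
    exact h5
  choose! g' hg1 hg2 using hgd
  have hsub : (fun w => dist w c) '' (h '' (sphere x ρ ∩ O)) ⊆ g '' T ∪ ({0} ∪ {g π}) := by
    rintro _ ⟨_, ⟨z, ⟨hz, hzO⟩, rfl⟩, rfl⟩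
    simp only
    have h1 : z ∈ range (circleMap x ρ) := by
      rw [range_circleMap, abs_of_pos hρ]
      exact hz
    obtain ⟨θ₀, hθ₀⟩ := h1
    have h2 : ∃ θ ∈ Ioc (-π) π, circleMap x ρ θ = z := by
      obtain ⟨θ, hθ, hθ2⟩ := (periodic_circleMap x ρ).exists_mem_Ioc (by positivity) θ₀ (-π)
      refine ⟨θ, ⟨hθ.1, ?_⟩, hθ2.symm.trans hθ₀⟩
      have := hθ.2
      linarith
    obtain ⟨θ, hθ, rfl⟩ := h2
    by_cases hc : h (circleMap x ρ θ) = c
    · right; left
      rw [hc, dist_self]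
      rfl
    · rcases eq_or_lt_of_le hθ.2 with h3 | h3
      · right; right
        rw [h3]
        rfl
      · left
        exact ⟨θ, ⟨⟨hzO, hc⟩, hθ.1, h3⟩, rfl⟩
  calc volume ((fun w => dist w c) '' (h '' (sphere x ρ ∩ O)))
      ≤ volume (g '' T ∪ ({0} ∪ {g π})) := measure_mono hsub
    _ ≤ volume (g '' T) + volume ({0} ∪ {g π} : Set ℝ) := measure_union_le _ _
    _ = volume (g '' T) := by
        have : volume ({0} ∪ {g π} : Set ℝ) = 0 := by
          refine measure_union_null ?_ ?_ <;> simp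
        rw [this, add_zero]
    _ ≤ ∫⁻ θ in T, ENNReal.ofReal |g' θ| := by
        have h1 := addHaar_image_le_lintegral_abs_det_fderiv volume hTo.measurableSet
          (fun θ hθ => (hg1 θ hθ).hasFDerivAt.hasFDerivWithinAt)
        simpa only [ContinuousLinearMap.det_toSpanSingleton] using h1
    _ ≤ ∫⁻ θ in T, ENNReal.ofReal ρ * dens O h (circleMap x ρ θ) :=
        setLIntegral_mono' hTo.measurableSet hg2
    _ ≤ len O h x ρ := lintegral_mono_set inter_subset_right

/-- length of the holes hit by the circle of radius `ρ` -/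
noncomputable def hit {ι : Type*} (Q : ι → Set ℂ) (d : ι → ℝ) (s : Finset ι) (x : ℂ) (ρ : ℝ) :
    ℝ≥0∞ :=
  ∑ j ∈ s, {ρ : ℝ | (Q j ∩ sphere x ρ).Nonempty}.indicator (fun _ => ENNReal.ofReal (2 * d j)) ρ

theorem measurableSet_hit {Q : Set ℂ} (hQ : IsCompact Q) (x : ℂ) :
    MeasurableSet {ρ : ℝ | (Q ∩ sphere x ρ).Nonempty} := by
  have : {ρ : ℝ | (Q ∩ sphere x ρ).Nonempty} = (fun z => dist z x) '' Q := by
    ext ρ
    constructor
    · rintro ⟨z, hz, hz2⟩
      exact ⟨z, hz, hz2⟩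
    · rintro ⟨z, hz, hz2⟩
      exact ⟨z, hz, hz2⟩
  rw [this]
  exact (hQ.image (by fun_prop)).isClosed.measurableSet

/-- the integral of the length over one annulus -/
theorem lintegral_len {O : Set ℂ} (hO : IsOpen O) (h : ℂ → ℂ) (x : ℂ) {r : ℝ} (hr : 0 < r)
    {s : ℝ} (hs : 0 < s) :
    ∫⁻ ρ in Icc r (2 * r), len O h x ρ ≤ ENNReal.ofReal (s / 2) * ENNReal.ofReal (16 * r ^ 2) +
      ENNReal.ofReal (1 / (2 * s)) * ∫⁻ z in {z | dist z x ∈ Icc r (2 * r)}, dens O h z ^ 2 := by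
  set A : Set ℂ := {z | dist z x ∈ Icc r (2 * r)} with hA
  have hAm : MeasurableSet A :=
    (isClosed_Icc.preimage (by fun_prop : Continuous fun z => dist z x)).measurableSet
  have hAvol : volume A ≤ ENNReal.ofReal (16 * r ^ 2) := by
    have h1 : A ⊆ closedBall x (2 * r) := fun z hz => hz.2
    refine (measure_mono h1).trans ?_
    rw [Complex.volume_closedBall]
    have h2 : ((NNReal.pi : NNReal) : ℝ≥0∞) = ENNReal.ofReal π := by
      rw [← NNReal.coe_real_pi, ENNReal.ofReal_coe_nnreal]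
    rw [h2, ← ENNReal.ofReal_pow (by positivity), ← ENNReal.ofReal_mul (by positivity)]
    refine ENNReal.ofReal_le_ofReal ?_
    nlinarith [Real.pi_le_four, sq_nonneg r]
  have h1 : ∫⁻ ρ in Icc r (2 * r), len O h x ρ ≤ ∫⁻ z, A.indicator (dens O h) z := by
    rw [FK.v_polar x ((measurable_dens hO h).indicator hAm)]
    calc ∫⁻ ρ in Icc r (2 * r), len O h x ρ
        ≤ ∫⁻ ρ in Icc r (2 * r), ∫⁻ θ in Ioo (-π) π,
            ENNReal.ofReal ρ * A.indicator (dens O h) (circleMap x ρ θ) := by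
          refine setLIntegral_mono' measurableSet_Icc fun ρ hρ => ?_
          refine lintegral_mono fun θ => ?_
          have : circleMap x ρ θ ∈ A := by
            show dist (circleMap x ρ θ) x ∈ Icc r (2 * r)
            rw [dist_eq_norm, circleMap_sub_center, norm_circleMap_zero,
              abs_of_pos (hr.trans_le hρ.1)]
            exact hρ
          simp only [indicator_of_mem this, le_refl]
      _ ≤ _ := lintegral_mono_set fun ρ hρ => hr.trans_le hρ.1
  refine h1.trans ?_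
  rw [lintegral_indicator hAm]
  calc ∫⁻ z in A, dens O h z
      ≤ ∫⁻ z in A, (ENNReal.ofReal (s / 2) + ENNReal.ofReal (1 / (2 * s)) * dens O h z ^ 2) := by
        refine lintegral_mono fun z => ?_
        have := ll_amgm 1 (dens O h z) hs
        simpa using this
    _ = ENNReal.ofReal (s / 2) * volume A +
        ENNReal.ofReal (1 / (2 * s)) * ∫⁻ z in A, dens O h z ^ 2 := by
        rw [lintegral_add_left measurable_const, setLIntegral_const,
          lintegral_const_mul' _ _ ENNReal.ofReal_ne_top]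
    _ ≤ _ := by gcongr

theorem lintegral_hit {ι : Type*} {Q : ι → Set ℂ} (hQ : ∀ j, IsCompact (Q j)) {d : ι → ℝ}
    (hd : ∀ j, 0 ≤ d j) (s : Finset ι) (x : ℂ) {r : ℝ} {v : ℝ} (hv : 0 < v) :
    ∫⁻ ρ in Icc r (2 * r), hit Q d s x ρ ≤
      ENNReal.ofReal v *
        (∑ j ∈ s, volume {ρ | ρ ∈ Icc r (2 * r) ∧ (Q j ∩ sphere x ρ).Nonempty} ^ 2) +
      ENNReal.ofReal (1 / v) *
        (∑ j ∈ s, {j | ∃ ρ ∈ Icc r (2 * r), (Q j ∩ sphere x ρ).Nonempty}.indicator
          (fun j => ENNReal.ofReal (d j) ^ 2) j) := by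
  unfold hit
  rw [lintegral_finsetSum _ fun j _ =>
    (measurable_const.indicator (measurableSet_hit (hQ j) x)), Finset.mul_sum, Finset.mul_sum,
    ← Finset.sum_add_distrib]
  refine Finset.sum_le_sum fun j _ => ?_
  rw [lintegral_indicator (measurableSet_hit (hQ j) x), setLIntegral_const,
    Measure.restrict_apply (measurableSet_hit (hQ j) x)]
  have h1 : {ρ : ℝ | (Q j ∩ sphere x ρ).Nonempty} ∩ Icc r (2 * r) =
      {ρ | ρ ∈ Icc r (2 * r) ∧ (Q j ∩ sphere x ρ).Nonempty} := by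
    ext ρ
    exact and_comm
  rw [h1]
  by_cases hj : ∃ ρ ∈ Icc r (2 * r), (Q j ∩ sphere x ρ).Nonempty
  · rw [indicator_of_mem (show j ∈ {j | ∃ ρ ∈ Icc r (2 * r), (Q j ∩ sphere x ρ).Nonempty} from hj)]
    have h2 := ll_amgm (volume {ρ | ρ ∈ Icc r (2 * r) ∧ (Q j ∩ sphere x ρ).Nonempty})
      (ENNReal.ofReal (2 * d j)) (s := 2 * v) (by positivity)
    have e1 : 2 * v / 2 = v := by ring
    rw [e1] at h2
    rw [mul_comm]
    refine h2.trans (le_of_eq ?_)
    congr 1
    rw [← ENNReal.ofReal_pow (by have := hd j; positivity), ← ENNReal.ofReal_pow (hd j),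
      ← ENNReal.ofReal_mul (by positivity), ← ENNReal.ofReal_mul (by positivity)]
    congr 1
    field_simp
  · have h2 : {ρ | ρ ∈ Icc r (2 * r) ∧ (Q j ∩ sphere x ρ).Nonempty} = ∅ := by
      rw [eq_empty_iff_forall_notMem]
      rintro ρ ⟨h3, h4⟩
      exact hj ⟨ρ, h3, h4⟩
    rw [h2]
    simp

/-- **Length-area with holes**: a circle with a short image. -/
theorem ll_core {ι : Type*} {O : Set ℂ} (hO : IsOpen O) {Q : ι → Set ℂ}
    (hQ : ∀ j, IsCompact (Q j)) {c : ι → ℂ} {d : ι → ℝ} (hd : ∀ j, 0 ≤ d j) (s : Finset ι)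
    (hdis : (s : Set ι).PairwiseDisjoint fun j => closedBall (c j) (d j)) {R : ℝ} (hR : 0 ≤ R)
    (hDR : ∀ j ∈ s, closedBall (c j) (d j) ⊆ closedBall 0 R) {h : ℂ → ℂ}
    (hh : DifferentiableOn ℂ h O) (hi : InjOn h O) (hhR : h '' O ⊆ closedBall 0 R) (x : ℂ)
    {m : ℕ} {r : ℕ → ℝ} (hr : ∀ k < m, 0 < r k)
    (hrd : ∀ i < m, ∀ k < m, i ≠ k → Disjoint (Icc (r i) (2 * r i)) (Icc (r k) (2 * r k)))
    (hone : ∀ j ∈ s, ∀ i < m, ∀ k < m, i ≠ k →
      (∃ ρ ∈ Icc (r i) (2 * r i), (Q j ∩ sphere x ρ).Nonempty) →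
      (∃ ρ ∈ Icc (r k) (2 * r k), (Q j ∩ sphere x ρ).Nonempty) → False)
    {C : ℝ} (hC : 0 < C)
    (hext : ∀ k < m, ∑ j ∈ s, volume {ρ | ρ ∈ Icc (r k) (2 * r k) ∧
      (Q j ∩ sphere x ρ).Nonempty} ^ 2 ≤ ENNReal.ofReal (C * r k ^ 2))
    {ε : ℝ} (hε : 0 < ε) (hm : (128 + 8 * C) * R ^ 2 < m * ε ^ 2) :
    ∃ k < m, ∃ ρ ∈ Icc (r k) (2 * r k), len O h x ρ + hit Q d s x ρ ≤ ENNReal.ofReal ε := by
  by_contra hcon
  push Not at hcon
  set a : ℕ → ℝ≥0∞ := fun k => ∫⁻ z in {z | dist z x ∈ Icc (r k) (2 * r k)}, dens O h z ^ 2 with ha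
  set b : ℕ → ℝ≥0∞ := fun k =>
    ∑ j ∈ s, {j | ∃ ρ ∈ Icc (r k) (2 * r k), (Q j ∩ sphere x ρ).Nonempty}.indicator
      (fun j => ENNReal.ofReal (d j) ^ 2) j with hb
  have hpi : ((NNReal.pi : NNReal) : ℝ≥0∞) = ENNReal.ofReal π := by
    rw [← NNReal.coe_real_pi, ENNReal.ofReal_coe_nnreal]
  -- one annulus
  have h1 : ∀ k < m, ENNReal.ofReal (ε ^ 2) ≤
      ENNReal.ofReal 32 * a k + ENNReal.ofReal (8 * C) * b k := by
    intro k hk
    have hrk := hr k hk
    have e1 : ENNReal.ofReal (ε * r k) ≤ ∫⁻ ρ in Icc (r k) (2 * r k), (len O h x ρ + hit Q d s x ρ) := by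
      have : ENNReal.ofReal (ε * r k) = ∫⁻ ρ in Icc (r k) (2 * r k), ENNReal.ofReal ε := by
        rw [setLIntegral_const, Real.volume_Icc, ← ENNReal.ofReal_mul hε.le]
        congr 1
        ring
      rw [this]
      exact setLIntegral_mono' measurableSet_Icc fun ρ hρ => (hcon k hk ρ hρ).le
    have hhm : Measurable (hit Q d s x) := by
      unfold hit
      exact Finset.measurable_sum _ fun j _ =>
        measurable_const.indicator (measurableSet_hit (hQ j) x)
    rw [lintegral_add_right _ hhm] at e1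
    have e2 := lintegral_len hO h x hrk (s := ε / (32 * r k)) (by positivity)
    have e3 := lintegral_hit hQ hd s x (r := r k) (v := ε / (4 * C * r k)) (by positivity)
    have e4 : ENNReal.ofReal (ε * r k) ≤
        (ENNReal.ofReal (ε * r k / 4) + ENNReal.ofReal (16 * r k / ε) * a k) +
        (ENNReal.ofReal (ε * r k / 4) + ENNReal.ofReal (4 * C * r k / ε) * b k) := by
      have g1 : ε / (32 * r k) / 2 * (16 * r k ^ 2) = ε * r k / 4 := by field_simp; norm_num
      have g2 : 1 / (2 * (ε / (32 * r k))) = 16 * r k / ε := by field_simp; norm_num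
      have g3 : ε / (4 * C * r k) * (C * r k ^ 2) = ε * r k / 4 := by field_simp
      have g4 : 1 / (ε / (4 * C * r k)) = 4 * C * r k / ε := by field_simp
      refine e1.trans (add_le_add (e2.trans (le_of_eq ?_)) (e3.trans ?_))
      · rw [← ENNReal.ofReal_mul (by positivity), g1, g2]
      · rw [g4]
        refine add_le_add ?_ le_rfl
        refine (mul_le_mul_right (hext k hk) _).trans (le_of_eq ?_)
        rw [← ENNReal.ofReal_mul (by positivity), g3]
    have e5 : ENNReal.ofReal (ε * r k) =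
        (ENNReal.ofReal (ε * r k / 4) + ENNReal.ofReal (ε * r k / 4)) +
          ENNReal.ofReal (ε * r k / 2) := by
      rw [← ENNReal.ofReal_add (by positivity) (by positivity),
        ← ENNReal.ofReal_add (by positivity) (by positivity)]
      congr 1
      ring
    have e6 : ENNReal.ofReal (ε * r k / 2) ≤
        ENNReal.ofReal (16 * r k / ε) * a k + ENNReal.ofReal (4 * C * r k / ε) * b k := by
      rw [e5] at e4
      have e7 : (ENNReal.ofReal (ε * r k / 4) + ENNReal.ofReal (16 * r k / ε) * a k) +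
        (ENNReal.ofReal (ε * r k / 4) + ENNReal.ofReal (4 * C * r k / ε) * b k) =
        (ENNReal.ofReal (ε * r k / 4) + ENNReal.ofReal (ε * r k / 4)) +
        (ENNReal.ofReal (16 * r k / ε) * a k + ENNReal.ofReal (4 * C * r k / ε) * b k) := by
        ring
      rw [e7] at e4
      exact (ENNReal.add_le_add_iff_left (by simp)).1 e4
    have e8 : ENNReal.ofReal (2 * ε / r k) * ENNReal.ofReal (ε * r k / 2) ≤
        ENNReal.ofReal (2 * ε / r k) *
        (ENNReal.ofReal (16 * r k / ε) * a k + ENNReal.ofReal (4 * C * r k / ε) * b k) := by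
      gcongr
    rw [mul_add, ← mul_assoc, ← mul_assoc, ← ENNReal.ofReal_mul (by positivity),
      ← ENNReal.ofReal_mul (by positivity), ← ENNReal.ofReal_mul (by positivity)] at e8
    have f1 : 2 * ε / r k * (ε * r k / 2) = ε ^ 2 := by field_simp
    have f2 : 2 * ε / r k * (16 * r k / ε) = 32 := by field_simp; norm_num
    have f3 : 2 * ε / r k * (4 * C * r k / ε) = 8 * C := by field_simp; norm_num
    rwa [f1, f2, f3] at e8
  -- sum over the annuli
  have h2 : ∑ k ∈ Finset.range m, a k ≤ ENNReal.ofReal (π * R ^ 2) := by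
    have e1 : ∑ k ∈ Finset.range m, a k =
        ∫⁻ z in ⋃ k ∈ Finset.range m, {z | dist z x ∈ Icc (r k) (2 * r k)}, dens O h z ^ 2 := by
      rw [lintegral_biUnion_finset]
      · intro i hi k hk hik
        have := hrd i (Finset.mem_range.1 hi) k (Finset.mem_range.1 hk) hik
        exact Set.disjoint_left.2 fun z hz1 hz2 => this.le_bot ⟨hz1, hz2⟩
      · intro k _
        exact (isClosed_Icc.preimage (by fun_prop : Continuous fun z => dist z x)).measurableSet
    rw [e1]
    refine (setLIntegral_le_lintegral _ _).trans ?_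
    rw [lintegral_dens_sq hO hh hi]
    refine (measure_mono hhR).trans ?_
    rw [Complex.volume_closedBall, hpi, ← ENNReal.ofReal_pow hR,
      ← ENNReal.ofReal_mul (by positivity), mul_comm]
  have h3 : ∑ k ∈ Finset.range m, b k ≤ ENNReal.ofReal (R ^ 2) := by
    have e1 : ∑ k ∈ Finset.range m, b k ≤ ∑ j ∈ s, ENNReal.ofReal (d j) ^ 2 := by
      rw [hb, Finset.sum_comm]
      refine Finset.sum_le_sum fun j hj => ?_
      by_cases hex : ∃ k < m, ∃ ρ ∈ Icc (r k) (2 * r k), (Q j ∩ sphere x ρ).Nonempty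
      · obtain ⟨k, hk, hk2⟩ := hex
        rw [Finset.sum_eq_single k]
        · refine indicator_le_self' (fun _ _ => bot_le) _
        · intro i hi hik
          rw [indicator_of_notMem]
          intro hi2
          exact hone j hj i (Finset.mem_range.1 hi) k hk hik hi2 hk2
        · intro h
          exact (h (Finset.mem_range.2 hk)).elim
      · rw [Finset.sum_eq_zero]
        · exact bot_le
        · intro k hk
          rw [indicator_of_notMem]
          intro h
          exact hex ⟨k, Finset.mem_range.1 hk, h⟩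
    refine e1.trans ?_
    have e2 : ∑ j ∈ s, volume (closedBall (c j) (d j)) ≤ volume (closedBall (0 : ℂ) R) := by
      rw [← measure_biUnion_finset hdis fun j _ => isClosed_closedBall.measurableSet]
      refine measure_mono (iUnion₂_subset fun j hj => hDR j hj)
    simp only [Complex.volume_closedBall] at e2
    rw [← Finset.sum_mul, hpi] at e2
    have e3 := (ENNReal.mul_le_mul_iff_left (by simp [Real.pi_pos] : ENNReal.ofReal π ≠ 0)
      ENNReal.ofReal_ne_top).1 e2
    rwa [← ENNReal.ofReal_pow hR] at e3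
  have h4 : (m : ℝ≥0∞) * ENNReal.ofReal (ε ^ 2) ≤
      ENNReal.ofReal 32 * ENNReal.ofReal (π * R ^ 2) +
        ENNReal.ofReal (8 * C) * ENNReal.ofReal (R ^ 2) := by
    calc (m : ℝ≥0∞) * ENNReal.ofReal (ε ^ 2) = ∑ k ∈ Finset.range m, ENNReal.ofReal (ε ^ 2) := by
          rw [Finset.sum_const, Finset.card_range, nsmul_eq_mul]
      _ ≤ ∑ k ∈ Finset.range m, (ENNReal.ofReal 32 * a k + ENNReal.ofReal (8 * C) * b k) :=
          Finset.sum_le_sum fun k hk => h1 k (Finset.mem_range.1 hk)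
      _ = ENNReal.ofReal 32 * ∑ k ∈ Finset.range m, a k +
          ENNReal.ofReal (8 * C) * ∑ k ∈ Finset.range m, b k := by
          rw [Finset.sum_add_distrib, Finset.mul_sum, Finset.mul_sum]
      _ ≤ _ := by gcongr
  rw [← ENNReal.ofReal_mul (by positivity), ← ENNReal.ofReal_mul (by positivity),
    ← ENNReal.ofReal_add (by positivity) (by positivity), ← ENNReal.ofReal_natCast,
    ← ENNReal.ofReal_mul (by positivity), ENNReal.ofReal_le_ofReal_iff (by positivity)] at h4
  have hpi4 := Real.pi_le_four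
  nlinarith [sq_nonneg R]

/-- the image of the circle, with the holes in `s` it hits -/
def circ {ι : Type*} (O : Set ℂ) (Q : ι → Set ℂ) (c : ι → ℂ) (d : ι → ℝ) (s : Finset ι) (h : ℂ → ℂ)
    (x : ℂ) (ρ : ℝ) : Set ℂ :=
  h '' (sphere x ρ ∩ O) ∪ ⋃ j ∈ s, ⋃ (_ : (Q j ∩ sphere x ρ).Nonempty), closedBall (c j) (d j)

theorem vol_circ_le {ι : Type*} {O : Set ℂ} (hO : IsOpen O) {Q : ι → Set ℂ} {c : ι → ℂ}
    {d : ι → ℝ} (s : Finset ι) {h : ℂ → ℂ} (hh : DifferentiableOn ℂ h O) (x c₀ : ℂ) {ρ : ℝ}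
    (hρ : 0 < ρ) :
    volume ((fun w => dist w c₀) '' circ O Q c d s h x ρ) ≤ len O h x ρ + hit Q d s x ρ := by
  unfold circ
  rw [image_union]
  refine (measure_union_le _ _).trans (add_le_add (vol_dist_le_len hO hh x c₀ hρ) ?_)
  rw [image_iUnion₂]
  refine (measure_biUnion_finset_le _ _).trans ?_
  unfold hit
  refine Finset.sum_le_sum fun j _ => ?_
  by_cases hj : (Q j ∩ sphere x ρ).Nonempty
  · rw [indicator_of_mem (show ρ ∈ {ρ : ℝ | (Q j ∩ sphere x ρ).Nonempty} from hj)]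
    have h0 : (⋃ (_ : (Q j ∩ sphere x ρ).Nonempty), closedBall (c j) (d j)) =
        closedBall (c j) (d j) := by
      simp [hj]
    rw [h0]
    have h1 : (fun w => dist w c₀) '' closedBall (c j) (d j) ⊆
        Icc (dist (c j) c₀ - d j) (dist (c j) c₀ + d j) := by
      rintro _ ⟨w, hw, rfl⟩
      rw [mem_closedBall] at hw
      have h2 := dist_triangle w (c j) c₀
      have h3 := dist_triangle (c j) w c₀
      rw [dist_comm (c j) w] at h3
      exact ⟨by simp only; linarith, by simp only; linarith⟩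
    refine (measure_mono h1).trans ?_
    rw [Real.volume_Icc]
    refine ENNReal.ofReal_le_ofReal ?_
    linarith
  · have : (⋃ (_ : (Q j ∩ sphere x ρ).Nonempty), closedBall (c j) (d j)) = ∅ := by
      simp [hj]
    rw [this, image_empty, measure_empty]
    exact bot_le

theorem sphere_preconnected (x : ℂ) {ρ : ℝ} : IsPreconnected (sphere x ρ) := by
  refine isPreconnected_sphere ?_ x ρ
  rw [Complex.rank_real_complex]
  norm_num

theorem vol_ge_of_preconnected {S : Set ℂ} (hS : IsPreconnected S) {c₀ u v : ℂ} (hu : u ∈ S)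
    (hv : v ∈ S) : ENNReal.ofReal (dist u c₀ - dist v c₀) ≤ volume ((fun w => dist w c₀) '' S) := by
  have h1 : IsPreconnected ((fun w => dist w c₀) '' S) :=
    hS.image _ (by fun_prop : Continuous fun w : ℂ => dist w c₀).continuousOn
  have h2 := h1.Icc_subset (mem_image_of_mem _ hv) (mem_image_of_mem _ hu)
  calc ENNReal.ofReal (dist u c₀ - dist v c₀) = volume (Icc (dist v c₀) (dist u c₀)) := by
        rw [Real.volume_Icc]
    _ ≤ _ := measure_mono h2

section final

variable {ι : Type*} [Finite ι] {U : Set ℂ} {Q : ι → Set ℂ} {c : ι → ℂ} {d : ι → ℝ} {h : ℂ → ℂ}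

/-- a circle with a short image which hits only holes in `s` has an image of small diameter -/
theorem circle_small (hU : IsOpen U) (hQ : ∀ j, IsCompact (Q j))
    (hdQ : Pairwise (Function.onFun Disjoint Q)) (hd : ∀ j, 0 ≤ d j) {s : Finset ι}
    (hh : DifferentiableOn ℂ h (U \ ⋃ j, Q j))
    (hb : ∀ j, ∀ ε > 0, ∃ δ > 0, ∀ z ∈ U \ ⋃ j, Q j, infDist z (Q j) < δ →
      infDist (h z) (closedBall (c j) (d j)) < ε)
    {x : ℂ} {ρ : ℝ} (hρ : 0 < ρ) (hsub : sphere x ρ ⊆ U)
    (hs : ∀ j, (Q j ∩ sphere x ρ).Nonempty → j ∈ s) {ε : ℝ} (hε : 0 ≤ ε)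
    (hlen : len (U \ ⋃ j, Q j) h x ρ + hit Q d s x ρ ≤ ENNReal.ofReal ε) :
    ∀ u ∈ TT Q (fun j => closedBall (c j) (d j)) h (sphere x ρ),
      ∀ v ∈ TT Q (fun j => closedBall (c j) (d j)) h (sphere x ρ), dist u v ≤ ε := by
  intro u hu v hv
  have hcl : IsClosed (⋃ j, Q j) := isClosed_iUnion_of_finite fun j => (hQ j).isClosed
  have hconn : IsPreconnected (TT Q (fun j => closedBall (c j) (d j)) h (sphere x ρ)) :=
    preconnected_TT hU (fun j => (hQ j).isClosed) (fun j => isCompact_closedBall _ _)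
      (fun j => (convex_closedBall _ _).isConnected (nonempty_closedBall.2 (hd j))) hdQ
      hh.continuousOn hb hsub (sphere_preconnected x)
  have h1 := vol_ge_of_preconnected hconn (c₀ := v) hu hv
  rw [dist_self, sub_zero] at h1
  have h2 : TT Q (fun j => closedBall (c j) (d j)) h (sphere x ρ) ⊆
      circ (U \ ⋃ j, Q j) Q c d s h x ρ := by
    rw [TT_eq]
    refine union_subset_union ?_ ?_
    · exact image_mono fun z hz => ⟨hz.1, hsub hz.1, hz.2⟩
    · intro w hw
      obtain ⟨j, hj, hw⟩ := mem_iUnion₂.1 hw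
      exact mem_iUnion₂.2 ⟨j, hs j hj, mem_iUnion.2 ⟨hj, hw⟩⟩
  have h3 := (h1.trans (measure_mono (image_mono h2))).trans
    ((vol_circ_le (hU.sdiff hcl) s hh x v hρ).trans hlen)
  exact (ENNReal.ofReal_le_ofReal_iff hε).1 h3

/-- a circle with a short image which hits the special hole `j₀` has an image in a neighbourhood
of the disk of `j₀` -/
theorem circle_near (hU : IsOpen U) (hQ : ∀ j, IsCompact (Q j))
    (hdQ : Pairwise (Function.onFun Disjoint Q)) (hd : ∀ j, 0 ≤ d j) {s : Finset ι}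
    (hh : DifferentiableOn ℂ h (U \ ⋃ j, Q j))
    (hb : ∀ j, ∀ ε > 0, ∃ δ > 0, ∀ z ∈ U \ ⋃ j, Q j, infDist z (Q j) < δ →
      infDist (h z) (closedBall (c j) (d j)) < ε)
    {x : ℂ} {ρ : ℝ} (hρ : 0 < ρ) (hsub : sphere x ρ ⊆ U) {j₀ : ι}
    (hj₀ : (Q j₀ ∩ sphere x ρ).Nonempty)
    (hs : ∀ j, (Q j ∩ sphere x ρ).Nonempty → j ∈ s ∨ j = j₀) {ε : ℝ} (hε : 0 ≤ ε)
    (hlen : len (U \ ⋃ j, Q j) h x ρ + hit Q d s x ρ ≤ ENNReal.ofReal ε) :
    TT Q (fun j => closedBall (c j) (d j)) h (sphere x ρ) ⊆ closedBall (c j₀) (d j₀ + ε) := by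
  intro u hu
  have hcl : IsClosed (⋃ j, Q j) := isClosed_iUnion_of_finite fun j => (hQ j).isClosed
  have hconn : IsPreconnected (TT Q (fun j => closedBall (c j) (d j)) h (sphere x ρ)) :=
    preconnected_TT hU (fun j => (hQ j).isClosed) (fun j => isCompact_closedBall _ _)
      (fun j => (convex_closedBall _ _).isConnected (nonempty_closedBall.2 (hd j))) hdQ
      hh.continuousOn hb hsub (sphere_preconnected x)
  have hc0 : c j₀ ∈ TT Q (fun j => closedBall (c j) (d j)) h (sphere x ρ) :=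
    subset_TT hj₀ (mem_closedBall_self (hd j₀))
  have h1 := vol_ge_of_preconnected hconn (c₀ := c j₀) hu hc0
  rw [dist_self, sub_zero] at h1
  have h2 : TT Q (fun j => closedBall (c j) (d j)) h (sphere x ρ) ⊆
      circ (U \ ⋃ j, Q j) Q c d s h x ρ ∪ closedBall (c j₀) (d j₀) := by
    rw [TT_eq]
    refine union_subset ?_ ?_
    · rintro _ ⟨z, hz, rfl⟩
      exact Or.inl (Or.inl ⟨z, ⟨hz.1, hsub hz.1, hz.2⟩, rfl⟩)
    · intro w hw
      obtain ⟨j, hj, hw⟩ := mem_iUnion₂.1 hw
      rcases hs j hj with h3 | h3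
      · exact Or.inl (Or.inr (mem_iUnion₂.2 ⟨j, h3, mem_iUnion.2 ⟨hj, hw⟩⟩))
      · subst h3
        exact Or.inr hw
  have h4 : volume ((fun w => dist w (c j₀)) '' closedBall (c j₀) (d j₀)) ≤
      ENNReal.ofReal (d j₀) := by
    have : (fun w => dist w (c j₀)) '' closedBall (c j₀) (d j₀) ⊆ Icc 0 (d j₀) := by
      rintro _ ⟨w, hw, rfl⟩
      exact ⟨dist_nonneg, hw⟩
    refine (measure_mono this).trans ?_
    rw [Real.volume_Icc, sub_zero]
  have h3 : ENNReal.ofReal (dist u (c j₀)) ≤ ENNReal.ofReal (d j₀ + ε) := by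
    calc ENNReal.ofReal (dist u (c j₀))
        ≤ volume ((fun w => dist w (c j₀)) '' (circ (U \ ⋃ j, Q j) Q c d s h x ρ ∪
            closedBall (c j₀) (d j₀))) := h1.trans (measure_mono (image_mono h2))
      _ ≤ volume ((fun w => dist w (c j₀)) '' circ (U \ ⋃ j, Q j) Q c d s h x ρ) +
            volume ((fun w => dist w (c j₀)) '' closedBall (c j₀) (d j₀)) := by
          rw [image_union]
          exact measure_union_le _ _
      _ ≤ ENNReal.ofReal ε + ENNReal.ofReal (d j₀) :=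
          add_le_add ((vol_circ_le (hU.sdiff hcl) s hh x (c j₀) hρ).trans hlen) h4
      _ = ENNReal.ofReal (d j₀ + ε) := by
          rw [← ENNReal.ofReal_add hε (hd j₀), add_comm]
  rw [mem_closedBall]
  exact (ENNReal.ofReal_le_ofReal_iff (add_nonneg (hd j₀) hε)).1 h3

end final

end Vale.Agent.P116.PBC
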