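import Mathlib
import Vale.Agent.P116.PBC.GCM
import Vale.Agent.P116.PBC.Baire
import Vale.Agent.P116.PBC.GA
import Vale.Agent.P116.PBC.GB
import Vale.Agent.P116.PBC.SD
import Vale.Agent.P116.PBC.N
import Vale.Agent.P116.PBC.Final

/-!
The packing theorem with a closed countable set of exceptional components, planar form.
-/

open Set Filter Topology Metric Bornology

namespace Vale.Agent.P116.PBC

open H906

theorem fullN_of_full {K : Set ℂ} (hK : IsCompact K) (hf : H906.Full K) : FullN K :=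
  fun _ hS hpc hd => full_nodes hK hf hS (fun P hP => (hpc P hP).imp And.left id) hd

theorem good_plane {K : Set ℂ} (hK : IsCompact K) (hc : IsPreconnected Kᶜ)
    (h : ∀ x ∈ K, GoodN K (nd K 0 x)) :
    ∃ g : ℂ → ℂ, NU Kᶜ g ∧ ∀ w ∉ g '' Kᶜ, ∃ (c : ℂ) (r : ℝ), 0 ≤ r ∧
      connectedComponentIn (g '' Kᶜ)ᶜ w = closedBall c r := by
  have hf : Full K := full_of_isPreconnected_compl hc hK.isBounded
  obtain ⟨𝔊, hFine, hgood⟩ := final hK (fullN_of_full hK hf) h
  obtain ⟨R, hR, hRK⟩ := lev_bdd hK 0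
  have hexh := hFine.exh (h := fk) hK hf hR hRK
  obtain ⟨g, hg⟩ := hexh.exists_lim
  exact ⟨g, hexh.lim_nu hg, fun w hw => assembly hK hf hFine hg (hgood g hg) hw⟩

/-- **the packing theorem off a closed countable set of components**, planar form -/
theorem pbc_plane {K B : Set ℂ} (hK : IsCompact K) (hc : IsPreconnected Kᶜ) (hB : IsClosed B)
    (hBK : B ⊆ K) (hsat : ∀ x ∈ B, connectedComponentIn K x ⊆ B)
    (hcount : (connectedComponentIn K '' B).Countable)
    (hPB : ∀ x ∈ K, x ∉ B → H906.PB K x) :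
    ∃ g : ℂ → ℂ, NU Kᶜ g ∧ ∀ w ∉ g '' Kᶜ, ∃ (c : ℂ) (r : ℝ), 0 ≤ r ∧
      connectedComponentIn (g '' Kᶜ)ᶜ w = closedBall c r := by
  have hf : Full K := full_of_isPreconnected_compl hc hK.isBounded
  have hN := fullN_of_full hK hf
  refine good_plane hK hc fun x hx => ?_
  refine baire_good hK hf hB hBK hsat hcount (GoodN K) (fun n x hx hd => ga hK hf hPB hx hd)
    (fun n x hx h => gb hK hf hx h) ?_ 0 x hx
  intro g hg n₀ h
  exact gc_of_main hK hg h (main_g hK hf hg fun 𝔊 hG w₀ hw η hη =>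
    small_disks hK hf hG hg hw hη)

end Vale.Agent.P116.PBC
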