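import Vale.Agent.P116.FK.Defs

/-!
# Saturated sets and separation transfer

A conformal map `f` from the complement of the compact sets `P j` onto the complement of the
compact sets `L j`, with boundary correspondence `P j ↔ L j`, is a homeomorphism of the plane with
the `P j` collapsed onto the plane with the `L j` collapsed.
-/

open Set Metric Filter Topology Bornology

namespace Vale.Agent.P116.PBC

variable {ι : Type*}

/-- the correspondence of points -/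
def Rel (P L : ι → Set ℂ) (f : ℂ → ℂ) (z w : ℂ) : Prop :=
  (z ∉ ⋃ j, P j) ∧ f z = w ∨ ∃ j, z ∈ P j ∧ w ∈ L j

/-- the image of `N` -/
def TT (P L : ι → Set ℂ) (f : ℂ → ℂ) (N : Set ℂ) : Set ℂ := {w | ∃ z ∈ N, Rel P L f z w}

/-- the preimage of `M` -/
def TI (P L : ι → Set ℂ) (f : ℂ → ℂ) (M : Set ℂ) : Set ℂ := {z | ∃ w ∈ M, Rel P L f z w}

/-- `N` is saturated with respect to the `P j` -/
def Sat (P : ι → Set ℂ) (N : Set ℂ) : Prop := ∀ j, (P j ∩ N).Nonempty → P j ⊆ N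

/-- a topological version of `FK.Pic` -/
structure Corr (P L : ι → Set ℂ) (f : ℂ → ℂ) : Prop where
  cP : ∀ j, IsCompact (P j)
  cL : ∀ j, IsCompact (L j)
  nP : ∀ j, (P j).Nonempty
  nL : ∀ j, (L j).Nonempty
  dP : Pairwise (Function.onFun Disjoint P)
  dL : Pairwise (Function.onFun Disjoint L)
  cont : ContinuousOn f (⋃ j, P j)ᶜ
  inj : InjOn f (⋃ j, P j)ᶜ
  image : f '' (⋃ j, P j)ᶜ = (⋃ j, L j)ᶜ
  infty : Tendsto f (cobounded ℂ) (cobounded ℂ)
  bdry : ∀ j, ∀ ε > 0, ∃ δ > 0, ∀ z ∉ ⋃ j, P j, infDist z (P j) < δ → infDist (f z) (L j) < ε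

section basic

variable {P L : ι → Set ℂ} {f : ℂ → ℂ} {N N' : Set ℂ}

theorem TT_union : TT P L f (N ∪ N') = TT P L f N ∪ TT P L f N' := by
  ext w
  constructor
  · rintro ⟨z, hz | hz, h⟩
    · exact Or.inl ⟨z, hz, h⟩
    · exact Or.inr ⟨z, hz, h⟩
  · rintro (⟨z, hz, h⟩ | ⟨z, hz, h⟩)
    · exact ⟨z, Or.inl hz, h⟩
    · exact ⟨z, Or.inr hz, h⟩

theorem TT_mono (h : N ⊆ N') : TT P L f N ⊆ TT P L f N' := fun _ ⟨z, hz, hw⟩ => ⟨z, h hz, hw⟩

theorem TI_mono (h : N ⊆ N') : TI P L f N ⊆ TI P L f N' := fun _ ⟨z, hz, hw⟩ => ⟨z, h hz, hw⟩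

theorem TI_union : TI P L f (N ∪ N') = TI P L f N ∪ TI P L f N' := by
  ext w
  constructor
  · rintro ⟨z, hz | hz, h⟩
    · exact Or.inl ⟨z, hz, h⟩
    · exact Or.inr ⟨z, hz, h⟩
  · rintro (⟨z, hz, h⟩ | ⟨z, hz, h⟩)
    · exact ⟨z, Or.inl hz, h⟩
    · exact ⟨z, Or.inr hz, h⟩

theorem mem_TT_of_notMem {z : ℂ} (hz : z ∈ N) (h : z ∉ ⋃ j, P j) : f z ∈ TT P L f N :=
  ⟨z, hz, Or.inl ⟨h, rfl⟩⟩

theorem subset_TT {j : ι} (h : (P j ∩ N).Nonempty) : L j ⊆ TT P L f N := by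
  obtain ⟨z, hz, hN⟩ := h
  exact fun w hw => ⟨z, hN, Or.inr ⟨j, hz, hw⟩⟩

theorem subset_TI {j : ι} (h : (L j ∩ N).Nonempty) : P j ⊆ TI P L f N := by
  obtain ⟨z, hz, hN⟩ := h
  exact fun w hw => ⟨z, hN, Or.inr ⟨j, hw, hz⟩⟩

theorem mem_TI_iff {z : ℂ} (h : z ∉ ⋃ j, P j) : z ∈ TI P L f N ↔ f z ∈ N := by
  constructor
  · rintro ⟨w, hw, ⟨-, rfl⟩ | ⟨j, hj, -⟩⟩
    · exact hw
    · exact (h (mem_iUnion.2 ⟨j, hj⟩)).elim
  · intro hz
    exact ⟨f z, hz, Or.inl ⟨h, rfl⟩⟩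

/-- an explicit form of `TT` -/
theorem TT_eq : TT P L f N = f '' (N \ ⋃ j, P j) ∪ ⋃ j ∈ {j | (P j ∩ N).Nonempty}, L j := by
  ext w
  constructor
  · rintro ⟨z, hz, ⟨h1, h2⟩ | ⟨j, h1, h2⟩⟩
    · exact Or.inl ⟨z, ⟨hz, h1⟩, h2⟩
    · exact Or.inr (mem_iUnion₂.2 ⟨j, ⟨z, h1, hz⟩, h2⟩)
  · rintro (⟨z, ⟨hz, h1⟩, h2⟩ | h)
    · exact ⟨z, hz, Or.inl ⟨h1, h2⟩⟩
    · obtain ⟨j, hj, h2⟩ := mem_iUnion₂.1 h
      exact subset_TT hj h2

end basic

namespace Corr

variable {P L : ι → Set ℂ} {f : ℂ → ℂ} (H : Corr P L f) {N N' M M' : Set ℂ}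
include H

theorem sat_TI : Sat P (TI P L f M) := by
  rintro j ⟨z, hz, w, hw, ⟨h1, -⟩ | ⟨i, hi, hwi⟩⟩
  · exact (h1 (mem_iUnion.2 ⟨j, hz⟩)).elim
  · have : i = j := by
      by_contra hij
      exact (H.dP hij).le_bot ⟨hi, hz⟩
    subst this
    exact subset_TI ⟨w, hwi, hw⟩

theorem f_mem {z : ℂ} (hz : z ∉ ⋃ j, P j) : f z ∉ ⋃ j, L j := by
  have : f z ∈ f '' (⋃ j, P j)ᶜ := mem_image_of_mem _ hz
  rwa [H.image] at this

theorem sat_TT : Sat L (TT P L f N) := by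
  rintro j ⟨w, hw, z, hz, ⟨h1, h2⟩ | ⟨i, hi, hwi⟩⟩
  · exact (H.f_mem h1 (by rw [h2]; exact mem_iUnion.2 ⟨j, hw⟩)).elim
  · have : i = j := by
      by_contra hij
      exact (H.dL hij).le_bot ⟨hwi, hw⟩
    subst this
    exact subset_TT ⟨z, hi, hz⟩

theorem TT_univ : TT P L f univ = univ := by
  refine eq_univ_of_forall fun w => ?_
  by_cases hw : w ∈ ⋃ j, L j
  · obtain ⟨j, hj⟩ := mem_iUnion.1 hw
    obtain ⟨z, hz⟩ := H.nP j
    exact ⟨z, mem_univ _, Or.inr ⟨j, hz, hj⟩⟩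
  · have : w ∈ f '' (⋃ j, P j)ᶜ := by rw [H.image]; exact hw
    obtain ⟨z, hz, rfl⟩ := this
    exact ⟨z, mem_univ _, Or.inl ⟨hz, rfl⟩⟩

theorem TI_univ : TI P L f univ = univ := by
  refine eq_univ_of_forall fun z => ?_
  by_cases hz : z ∈ ⋃ j, P j
  · obtain ⟨j, hj⟩ := mem_iUnion.1 hz
    obtain ⟨w, hw⟩ := H.nL j
    exact ⟨w, mem_univ _, Or.inr ⟨j, hj, hw⟩⟩
  · exact ⟨f z, mem_univ _, Or.inl ⟨hz, rfl⟩⟩

/-- two preimages of the same point are equal or in the same `P j` -/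
theorem rel_unique {z z' w : ℂ} (h : Rel P L f z w) (h' : Rel P L f z' w) :
    z = z' ∨ ∃ j, z ∈ P j ∧ z' ∈ P j := by
  rcases h with ⟨h1, h2⟩ | ⟨j, h1, h2⟩
  · rcases h' with ⟨h3, h4⟩ | ⟨j, h3, h4⟩
    · exact Or.inl (H.inj h1 h3 (h2.trans h4.symm))
    · exact (H.f_mem h1 (mem_iUnion.2 ⟨j, by rw [h2]; exact h4⟩)).elim
  · rcases h' with ⟨h3, h4⟩ | ⟨i, h3, h4⟩
    · exact (H.f_mem h3 (mem_iUnion.2 ⟨j, by rw [h4]; exact h2⟩)).elim
    · have : i = j := by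
        by_contra hij
        exact (H.dL hij).le_bot ⟨h4, h2⟩
      subst this
      exact Or.inr ⟨i, h1, h3⟩

/-- two images of the same point are equal or in the same `L j` -/
theorem rel_unique' {z w w' : ℂ} (h : Rel P L f z w) (h' : Rel P L f z w') :
    w = w' ∨ ∃ j, w ∈ L j ∧ w' ∈ L j := by
  rcases h with ⟨h1, h2⟩ | ⟨j, h1, h2⟩
  · rcases h' with ⟨h3, h4⟩ | ⟨j, h3, h4⟩
    · exact Or.inl (h2.symm.trans h4)
    · exact (h1 (mem_iUnion.2 ⟨j, h3⟩)).elim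
  · rcases h' with ⟨h3, h4⟩ | ⟨i, h3, h4⟩
    · exact (h3 (mem_iUnion.2 ⟨j, h1⟩)).elim
    · have : i = j := by
        by_contra hij
        exact (H.dP hij).le_bot ⟨h3, h1⟩
      subst this
      exact Or.inr ⟨i, h2, h4⟩

theorem disjoint_TT (hN : Sat P N) (h : Disjoint N N') : Disjoint (TT P L f N) (TT P L f N') := by
  rw [disjoint_left]
  rintro w ⟨z, hz, h1⟩ ⟨z', hz', h2⟩
  rcases H.rel_unique h1 h2 with h3 | ⟨j, h3, h4⟩
  · subst h3
    exact h.le_bot ⟨hz, hz'⟩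
  · exact h.le_bot ⟨hN j ⟨z, h3, hz⟩ h4, hz'⟩

theorem disjoint_TI (hM : Sat L M) (h : Disjoint M M') : Disjoint (TI P L f M) (TI P L f M') := by
  rw [disjoint_left]
  rintro w ⟨z, hz, h1⟩ ⟨z', hz', h2⟩
  rcases H.rel_unique' h1 h2 with h3 | ⟨j, h3, h4⟩
  · subst h3
    exact h.le_bot ⟨hz, hz'⟩
  · exact h.le_bot ⟨hM j ⟨z, h3, hz⟩ h4, hz'⟩

theorem TT_compl (hN : Sat P N) : TT P L f Nᶜ = (TT P L f N)ᶜ := by
  have h1 : TT P L f N ∪ TT P L f Nᶜ = univ := by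
    rw [← TT_union, union_compl_self, H.TT_univ]
  have h2 : Disjoint (TT P L f N) (TT P L f Nᶜ) := H.disjoint_TT hN disjoint_compl_right
  refine Subset.antisymm (subset_compl_iff_disjoint_left.2 h2) fun w hw => ?_
  have : w ∈ TT P L f N ∪ TT P L f Nᶜ := by rw [h1]; exact mem_univ w
  exact this.resolve_left hw

theorem TI_compl (hM : Sat L M) : TI P L f Mᶜ = (TI P L f M)ᶜ := by
  have h1 : TI P L f M ∪ TI P L f Mᶜ = univ := by
    rw [← TI_union, union_compl_self, H.TI_univ]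
  have h2 : Disjoint (TI P L f M) (TI P L f Mᶜ) := H.disjoint_TI hM disjoint_compl_right
  refine Subset.antisymm (subset_compl_iff_disjoint_left.2 h2) fun w hw => ?_
  have : w ∈ TI P L f M ∪ TI P L f Mᶜ := by rw [h1]; exact mem_univ w
  exact this.resolve_left hw

theorem TT_TI (hM : Sat L M) : TT P L f (TI P L f M) = M := by
  ext w
  constructor
  · rintro ⟨z, ⟨w', hw', h1⟩, h2⟩
    rcases H.rel_unique' h1 h2 with h3 | ⟨j, h3, h4⟩
    · subst h3; exact hw'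
    · exact hM j ⟨w', h3, hw'⟩ h4
  · intro hw
    have : w ∈ TT P L f univ := by rw [H.TT_univ]; exact mem_univ w
    obtain ⟨z, -, hz⟩ := this
    exact ⟨z, ⟨w, hw, hz⟩, hz⟩

theorem TI_TT (hN : Sat P N) : TI P L f (TT P L f N) = N := by
  ext z
  constructor
  · rintro ⟨w, ⟨z', hz', h1⟩, h2⟩
    rcases H.rel_unique h1 h2 with h3 | ⟨j, h3, h4⟩
    · subst h3; exact hz'
    · exact hN j ⟨z', h3, hz'⟩ h4
  · intro hz
    have : z ∈ TI P L f univ := by rw [H.TI_univ]; exact mem_univ z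
    obtain ⟨w, -, hw⟩ := this
    exact ⟨w, ⟨z, hz, hw⟩, hw⟩

variable [Finite ι]

theorem closed_P : IsClosed (⋃ j, P j) := isClosed_iUnion_of_finite fun j => (H.cP j).isClosed

theorem closed_L : IsClosed (⋃ j, L j) := isClosed_iUnion_of_finite fun j => (H.cL j).isClosed

/-- the basic compactness statement: a sequence `f (z n)` with `z n → z` -/
theorem seq_lim {z : ℕ → ℂ} (hz : ∀ n, z n ∉ ⋃ j, P j) {z₀ : ℂ} (hlim : Tendsto z atTop (𝓝 z₀))
    {w₀ : ℂ} (hw : Tendsto (fun n => f (z n)) atTop (𝓝 w₀)) : Rel P L f z₀ w₀ := by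
  by_cases h0 : z₀ ∈ ⋃ j, P j
  · obtain ⟨j, hj⟩ := mem_iUnion.1 h0
    refine Or.inr ⟨j, hj, ?_⟩
    have h1 : Tendsto (fun n => infDist (f (z n)) (L j)) atTop (𝓝 (infDist w₀ (L j))) :=
      ((continuous_infDist_pt (L j)).tendsto w₀).comp hw
    have h2 : Tendsto (fun n => infDist (f (z n)) (L j)) atTop (𝓝 0) := by
      rw [Metric.tendsto_atTop]
      intro ε hε
      obtain ⟨δ, hδ, hb⟩ := H.bdry j ε hε
      obtain ⟨n₀, hn₀⟩ := (Metric.tendsto_atTop.1 hlim) δ hδ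
      refine ⟨n₀, fun n hn => ?_⟩
      rw [Real.dist_eq, sub_zero, abs_of_nonneg infDist_nonneg]
      refine hb _ (hz n) ((infDist_le_dist_of_mem hj).trans_lt (hn₀ n hn))
    have h3 := tendsto_nhds_unique h1 h2
    exact ((H.cL j).isClosed.mem_iff_infDist_zero (H.nL j)).2 h3
  · refine Or.inl ⟨h0, ?_⟩
    have h1 : ContinuousAt f z₀ := H.cont.continuousAt (H.closed_P.isOpen_compl.mem_nhds h0)
    exact tendsto_nhds_unique (h1.tendsto.comp hlim) hw

/-- bounded sets have bounded images -/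
theorem bounded_TT (hN : IsBounded N) : IsBounded (TT P L f N) := by
  rw [TT_eq]
  refine IsBounded.union ?_ ?_
  · by_contra hcon
    have h1 : ∀ n : ℕ, ∃ z ∈ N \ ⋃ j, P j, (n : ℝ) < ‖f z‖ := by
      intro n
      by_contra h
      push Not at h
      refine hcon ((isBounded_iff_forall_norm_le).2 ⟨n, ?_⟩)
      rintro _ ⟨z, hz, rfl⟩
      exact h z hz
    choose z hz hzn using h1
    obtain ⟨z₀, -, φ, hφ, hlim⟩ := tendsto_subseq_of_bounded hN (fun n => (hz n).1)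
    by_cases h0 : z₀ ∈ ⋃ j, P j
    · obtain ⟨j, hj⟩ := mem_iUnion.1 h0
      obtain ⟨δ, hδ, hb⟩ := H.bdry j 1 one_pos
      obtain ⟨M, hM⟩ := (H.cL j).isBounded.exists_norm_le
      obtain ⟨n₀, hn₀⟩ := (Metric.tendsto_atTop.1 hlim) δ hδ
      obtain ⟨n₁, hn₁⟩ := exists_nat_gt (M + 1)
      have h3 := hb _ (hz (φ (max n₀ n₁))).2
        ((infDist_le_dist_of_mem hj).trans_lt (hn₀ _ (le_max_left _ _)))
      rw [infDist_lt_iff (H.nL j)] at h3
      obtain ⟨y, hy, hy2⟩ := h3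
      have h4 := hzn (φ (max n₀ n₁))
      have h5 : (n₁ : ℝ) ≤ φ (max n₀ n₁) := by
        have : n₁ ≤ φ (max n₀ n₁) := (le_max_right n₀ n₁).trans (hφ.id_le _)
        exact_mod_cast this
      have h6 := norm_sub_norm_le (f (z (φ (max n₀ n₁)))) y
      rw [← dist_eq_norm] at h6
      have h7 := hM y hy
      linarith
    · have h1 : ContinuousAt f z₀ := H.cont.continuousAt (H.closed_P.isOpen_compl.mem_nhds h0)
      have h2 := (h1.tendsto.comp hlim).norm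
      obtain ⟨n₀, hn₀⟩ := (Metric.tendsto_atTop.1 h2) 1 one_pos
      obtain ⟨n₁, hn₁⟩ := exists_nat_gt (‖f z₀‖ + 1)
      have h3 := hn₀ (max n₀ n₁) (le_max_left _ _)
      have h4 := hzn (φ (max n₀ n₁))
      have h5 : (n₁ : ℝ) ≤ φ (max n₀ n₁) := by
        have : n₁ ≤ φ (max n₀ n₁) := (le_max_right n₀ n₁).trans (hφ.id_le _)
        exact_mod_cast this
      rw [Real.dist_eq, abs_lt] at h3
      simp only [Function.comp] at h3
      linarith [h3.2]
  · refine (isBounded_biUnion (toFinite _)).2 fun j _ => (H.cL j).isBounded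

/-- images of closed sets are closed -/
theorem closed_TT (hN : IsClosed N) : IsClosed (TT P L f N) := by
  rw [TT_eq, ← closure_subset_iff_isClosed, closure_union]
  have hc2 : IsClosed (⋃ j ∈ {j | (P j ∩ N).Nonempty}, L j) :=
    (toFinite _).isClosed_biUnion fun j _ => (H.cL j).isClosed
  rw [hc2.closure_eq]
  refine union_subset ?_ subset_union_right
  intro w hw
  rw [mem_closure_iff_seq_limit] at hw
  obtain ⟨y, hy, hlim⟩ := hw
  choose z hz hzy using hy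
  -- `z` is bounded
  have hbd : ∃ M : ℝ, ∀ n, ‖z n‖ ≤ M := by
    by_contra hcon
    push Not at hcon
    have h1 : ∀ᶠ u in cobounded ℂ, ‖w‖ + 1 < ‖f u‖ :=
      (tendsto_norm_cobounded_atTop.comp H.infty).eventually_gt_atTop _
    rw [← comap_norm_atTop, eventually_comap] at h1
    obtain ⟨M, hM⟩ := (eventually_atTop.1 h1)
    have h2 := hlim.norm
    obtain ⟨n₀, hn₀⟩ := (Metric.tendsto_atTop.1 h2) 1 one_pos
    -- all terms from `n₀` on satisfy `‖z n‖ < M`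
    have h3 : ∀ n ≥ n₀, ‖z n‖ < M := by
      intro n hn
      by_contra h4
      push Not at h4
      have h5 := hM _ h4 (z n) rfl
      have h6 := hn₀ n hn
      rw [Real.dist_eq, abs_lt] at h6
      rw [hzy n] at h5
      linarith [h6.2]
    obtain ⟨n, hn⟩ := hcon (max M (∑ i ∈ Finset.range n₀, ‖z i‖))
    rcases lt_or_ge n n₀ with h4 | h4
    · have h5 := Finset.single_le_sum (f := fun i => ‖z i‖) (fun i _ => norm_nonneg _)
        (Finset.mem_range.2 h4)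
      have h6 := le_max_right M (∑ i ∈ Finset.range n₀, ‖z i‖)
      linarith
    · have h5 := h3 n h4
      have h6 := le_max_left M (∑ i ∈ Finset.range n₀, ‖z i‖)
      linarith
  obtain ⟨M, hM⟩ := hbd
  obtain ⟨z₀, -, φ, hφ, hlim2⟩ := tendsto_subseq_of_bounded (x := z)
    (isBounded_closedBall (x := (0 : ℂ)) (r := M)) (fun n => by simpa using hM n)
  have hz₀N : z₀ ∈ N := hN.mem_of_tendsto hlim2 (Eventually.of_forall fun n => (hz (φ n)).1)
  have h8 : Tendsto (fun n => f ((z ∘ φ) n)) atTop (𝓝 w) := by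
    have : (fun n => f ((z ∘ φ) n)) = y ∘ φ := by
      funext n
      exact hzy (φ n)
    rw [this]
    exact hlim.comp hφ.tendsto_atTop
  have h9 := H.seq_lim (z := z ∘ φ) (fun n => (hz (φ n)).2) hlim2 h8
  rw [← TT_eq]
  exact ⟨z₀, hz₀N, h9⟩

/-- preimages of closed sets are closed -/
theorem closed_TI (hM : IsClosed M) : IsClosed (TI P L f M) := by
  rw [← closure_subset_iff_isClosed]
  intro z₀ hz₀
  rw [mem_closure_iff_seq_limit] at hz₀
  obtain ⟨z, hz, hlim⟩ := hz₀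
  by_cases h0 : z₀ ∈ ⋃ j, P j
  · obtain ⟨j, hj⟩ := mem_iUnion.1 h0
    -- either infinitely many `z n` in `⋃ P` or eventually none
    by_cases hfr : ∃ᶠ n in atTop, z n ∈ ⋃ j, P j
    · -- then infinitely many in one `P i`, which must be `P j`
      have h1 : ∃ i, ∃ᶠ n in atTop, z n ∈ P i := by
        by_contra hcon
        push Not at hcon
        have h2 : ∀ᶠ n in atTop, ∀ i, z n ∉ P i := eventually_all.2 fun i => hcon i
        exact hfr (h2.mono fun n hn h3 => by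
          obtain ⟨i, hi⟩ := mem_iUnion.1 h3
          exact hn i hi)
      obtain ⟨i, hi⟩ := h1
      have h2 : z₀ ∈ P i := (H.cP i).isClosed.mem_of_frequently_of_tendsto hi hlim
      have hij : i = j := by
        by_contra hij
        exact (H.dP hij).le_bot ⟨h2, hj⟩
      subst hij
      obtain ⟨n, hn⟩ := hi.exists
      exact H.sat_TI i ⟨z n, hn, hz n⟩ hj
    · rw [not_frequently] at hfr
      obtain ⟨n₀, hn₀⟩ := eventually_atTop.1 hfr
      have h1 : ∀ n, f (z (n + n₀)) ∈ M := by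
        intro n
        have h2 := hn₀ (n + n₀) (by omega)
        exact (mem_TI_iff h2).1 (hz _)
      have hbd : IsBounded (range fun n => f (z (n + n₀))) := by
        refine (H.bounded_TT (N := range z) (isBounded_range_of_tendsto z hlim)).subset ?_
        rintro _ ⟨n, rfl⟩
        exact mem_TT_of_notMem (mem_range_self _) (hn₀ _ (by omega))
      obtain ⟨w₀, -, φ, hφ, hlim2⟩ := tendsto_subseq_of_bounded hbd (mem_range_self)
      have h3 : w₀ ∈ M := hM.mem_of_tendsto hlim2 (Eventually.of_forall fun n => h1 _)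
      have h4 : Tendsto (fun n => z (φ n + n₀)) atTop (𝓝 z₀) :=
        hlim.comp ((tendsto_add_atTop_nat n₀).comp hφ.tendsto_atTop)
      exact ⟨w₀, h3, H.seq_lim (fun n => hn₀ _ (by omega)) h4 hlim2⟩
  · have h1 : ContinuousAt f z₀ := H.cont.continuousAt (H.closed_P.isOpen_compl.mem_nhds h0)
    have h2 : ∀ᶠ n in atTop, z n ∉ ⋃ j, P j :=
      hlim.eventually (H.closed_P.isOpen_compl.mem_nhds h0)
    rw [mem_TI_iff h0]
    refine hM.mem_of_tendsto (h1.tendsto.comp hlim) ?_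
    filter_upwards [h2] with n hn
    exact (mem_TI_iff hn).1 (hz n)

theorem open_TT (hN : IsOpen N) (hs : Sat P N) : IsOpen (TT P L f N) := by
  rw [← isClosed_compl_iff, ← H.TT_compl hs]
  exact H.closed_TT hN.isClosed_compl

theorem open_TI (hM : IsOpen M) (hs : Sat L M) : IsOpen (TI P L f M) := by
  rw [← isClosed_compl_iff, ← H.TI_compl hs]
  exact H.closed_TI hM.isClosed_compl

theorem bounded_TI (hM : IsBounded M) : IsBounded (TI P L f M) := by
  obtain ⟨b, hb⟩ := hM.exists_norm_le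
  have h1 : ∀ᶠ u in cobounded ℂ, b < ‖f u‖ :=
    (tendsto_norm_cobounded_atTop.comp H.infty).eventually_gt_atTop _
  rw [← comap_norm_atTop, eventually_comap] at h1
  obtain ⟨c, hc⟩ := eventually_atTop.1 h1
  have h2 : TI P L f M ⊆ closedBall 0 c ∪ ⋃ j, P j := by
    rintro z ⟨w, hw, ⟨h3, h4⟩ | ⟨j, h3, -⟩⟩
    · left
      rw [mem_closedBall_zero_iff]
      by_contra h5
      push Not at h5
      have := hc _ h5.le z rfl
      rw [h4] at this
      exact absurd (hb w hw) (not_le.2 this)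
    · exact Or.inr (mem_iUnion.2 ⟨j, h3⟩)
  exact (isBounded_closedBall.union
    ((isCompact_iUnion fun j => H.cP j).isBounded)).subset h2

/-- **Separation transfer** -/
theorem separation (hN : IsOpen N) (hNs : Sat P N) (hNb : IsBounded N) (hN' : IsOpen N')
    (hNs' : Sat P N') (hd : Disjoint N N') {E : Set ℂ} (hEb : IsBounded E)
    (hE : IsPreconnected Eᶜ) (hT : TT P L f (N ∪ N')ᶜ ⊆ E) : TT P L f N ⊆ E := by
  have h1 : Eᶜ ⊆ TT P L f N ∪ TT P L f N' := by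
    intro w hw
    have : w ∈ TT P L f univ := by rw [H.TT_univ]; exact mem_univ w
    rw [← union_compl_self (N ∪ N'), TT_union, TT_union] at this
    exact this.resolve_right fun h => hw (hT h)
  have hdis := H.disjoint_TT hNs hd
  rcases hE.subset_or_subset (H.open_TT hN hNs) (H.open_TT hN' hNs') hdis h1 with h2 | h2
  · exfalso
    have h3 : IsBounded (univ : Set ℂ) := by
      rw [← union_compl_self E]
      exact hEb.union ((H.bounded_TT hNb).subset h2)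
    exact NormedSpace.unbounded_univ ℂ ℂ h3
  · intro w hw
    by_contra hwE
    exact hdis.le_bot ⟨hw, h2 hwE⟩

end Corr

/-- images of connected sets are connected (local version) -/
theorem preconnected_TT [Finite ι] {P L : ι → Set ℂ} {f : ℂ → ℂ} {U N : Set ℂ}
    (hU : IsOpen U) (hP : ∀ j, IsClosed (P j)) (hL : ∀ j, IsCompact (L j))
    (hLc : ∀ j, IsConnected (L j)) (hdP : Pairwise (Function.onFun Disjoint P))
    (hcont : ContinuousOn f (U \ ⋃ j, P j))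
    (hb : ∀ j, ∀ ε > 0, ∃ δ > 0, ∀ z ∈ U \ ⋃ j, P j, infDist z (P j) < δ →
      infDist (f z) (L j) < ε)
    (hNU : N ⊆ U) (hN : IsPreconnected N) : IsPreconnected (TT P L f N) := by
  have hcl : IsClosed (⋃ j, P j) := isClosed_iUnion_of_finite hP
  -- upper semicontinuity
  have husc : ∀ z ∈ N, ∀ V : Set ℂ, IsOpen V → (∀ w, Rel P L f z w → w ∈ V) →
      ∃ W, IsOpen W ∧ z ∈ W ∧ ∀ z' ∈ W ∩ U, ∀ w, Rel P L f z' w → w ∈ V := by
    intro z hz V hV hzV
    by_cases h0 : z ∈ ⋃ j, P j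
    · obtain ⟨j, hj⟩ := mem_iUnion.1 h0
      have h1 : L j ⊆ V := fun w hw => hzV w (Or.inr ⟨j, hj, hw⟩)
      obtain ⟨ε, hε, h2⟩ := (hL j).exists_thickening_subset_open hV h1
      obtain ⟨δ, hδ, h3⟩ := hb j ε hε
      refine ⟨ball z δ ∩ (⋃ i ∈ {i | i ≠ j}, P i)ᶜ, ?_, ⟨mem_ball_self hδ, ?_⟩, ?_⟩
      · exact isOpen_ball.inter
          ((toFinite _).isClosed_biUnion fun i _ => hP i).isOpen_compl
      · rw [mem_compl_iff, mem_iUnion₂]
        rintro ⟨i, hi, hzi⟩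
        exact (hdP hi).le_bot ⟨hzi, hj⟩
      · rintro z' ⟨⟨hz1, hz2⟩, hz3⟩ w (⟨h4, h5⟩ | ⟨i, h4, h5⟩)
        · refine h2 ?_
          rw [mem_thickening_iff_infDist_lt (hLc j).nonempty, ← h5]
          refine h3 z' ⟨hz3, h4⟩ ((infDist_le_dist_of_mem hj).trans_lt hz1)
        · by_cases hij : i = j
          · subst hij
            exact h1 h5
          · exact (hz2 (mem_iUnion₂.2 ⟨i, hij, h4⟩)).elim
    · have h1 : ContinuousAt f z :=
        hcont.continuousAt ((hU.sdiff hcl).mem_nhds ⟨hNU hz, h0⟩)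
      have h2 : f ⁻¹' V ∈ 𝓝 z := h1 (hV.mem_nhds (hzV _ (Or.inl ⟨h0, rfl⟩)))
      obtain ⟨W, hW1, hW2, hW3⟩ := _root_.mem_nhds_iff.1 (inter_mem h2 (hcl.isOpen_compl.mem_nhds h0))
      refine ⟨W, hW2, hW3, ?_⟩
      rintro z' ⟨hz', -⟩ w (⟨h4, h5⟩ | ⟨i, h4, h5⟩)
      · rw [← h5]; exact (hW1 hz').1
      · exact ((hW1 hz').2 (mem_iUnion.2 ⟨i, h4⟩)).elim
  -- the fibres are connected and nonempty
  have hfib : ∀ z, IsConnected {w | Rel P L f z w} := by
    intro z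
    by_cases h0 : z ∈ ⋃ j, P j
    · obtain ⟨j, hj⟩ := mem_iUnion.1 h0
      have : {w | Rel P L f z w} = L j := by
        ext w
        constructor
        · rintro (⟨h1, -⟩ | ⟨i, h1, h2⟩)
          · exact (h1 h0).elim
          · have : i = j := by
              by_contra hij
              exact (hdP hij).le_bot ⟨h1, hj⟩
            subst this
            exact h2
        · exact fun h => Or.inr ⟨j, hj, h⟩
      rw [this]
      exact hLc j
    · have : {w | Rel P L f z w} = {f z} := by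
        ext w
        constructor
        · rintro (⟨-, h1⟩ | ⟨i, h1, h2⟩)
          · exact h1.symm
          · exact (h0 (mem_iUnion.2 ⟨i, h1⟩)).elim
        · rintro rfl
          exact Or.inl ⟨h0, rfl⟩
      rw [this]
      exact isConnected_singleton
  rw [isPreconnected_iff_subset_of_disjoint]
  intro u v hu hv huv hdis
  -- cover `N` by two open sets
  set A : Set ℂ := {z | ∀ w, Rel P L f z w → w ∈ u} with hA
  set B : Set ℂ := {z | ∀ w, Rel P L f z w → w ∈ v} with hB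
  have hsplit : ∀ z ∈ N, z ∈ A ∨ z ∈ B := by
    intro z hz
    have h1 : {w | Rel P L f z w} ⊆ u ∪ v := fun w hw => huv ⟨z, hz, hw⟩
    have h2 : {w | Rel P L f z w} ∩ (u ∩ v) = ∅ := by
      rw [← subset_empty_iff, ← hdis]
      exact fun w hw => ⟨⟨z, hz, hw.1⟩, hw.2⟩
    rcases isPreconnected_iff_subset_of_disjoint.1 (hfib z).isPreconnected u v hu hv h1 h2 with h | h
    · exact Or.inl h
    · exact Or.inr h
  have hAopen : ∀ z ∈ N, z ∈ A → ∃ W, IsOpen W ∧ z ∈ W ∧ W ∩ U ⊆ A := fun z hz hzA => by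
    obtain ⟨W, h1, h2, h3⟩ := husc z hz u hu hzA
    exact ⟨W, h1, h2, fun z' hz' => h3 z' hz'⟩
  have hBopen : ∀ z ∈ N, z ∈ B → ∃ W, IsOpen W ∧ z ∈ W ∧ W ∩ U ⊆ B := fun z hz hzB => by
    obtain ⟨W, h1, h2, h3⟩ := husc z hz v hv hzB
    exact ⟨W, h1, h2, fun z' hz' => h3 z' hz'⟩
  choose! WA hWA1 hWA2 hWA3 using hAopen
  choose! WB hWB1 hWB2 hWB3 using hBopen
  have hO1 : IsOpen (⋃ z ∈ N ∩ A, WA z) :=
    isOpen_biUnion fun z hz => hWA1 z hz.1 hz.2
  have hO2 : IsOpen (⋃ z ∈ N ∩ B, WB z) :=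
    isOpen_biUnion fun z hz => hWB1 z hz.1 hz.2
  have hcov : N ⊆ (⋃ z ∈ N ∩ A, WA z) ∪ ⋃ z ∈ N ∩ B, WB z := by
    intro z hz
    rcases hsplit z hz with h | h
    · exact Or.inl (mem_iUnion₂.2 ⟨z, ⟨hz, h⟩, hWA2 z hz h⟩)
    · exact Or.inr (mem_iUnion₂.2 ⟨z, ⟨hz, h⟩, hWB2 z hz h⟩)
  have hdisj : N ∩ ((⋃ z ∈ N ∩ A, WA z) ∩ ⋃ z ∈ N ∩ B, WB z) = ∅ := by
    rw [← subset_empty_iff]
    rintro z ⟨hz, h1, h2⟩
    obtain ⟨a, ha, ha2⟩ := mem_iUnion₂.1 h1
    obtain ⟨b, hb', hb2⟩ := mem_iUnion₂.1 h2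
    have h3 : z ∈ A := hWA3 a ha.1 ha.2 ⟨ha2, hNU hz⟩
    have h4 : z ∈ B := hWB3 b hb'.1 hb'.2 ⟨hb2, hNU hz⟩
    obtain ⟨w, hw⟩ := (hfib z).nonempty
    have h5 : w ∈ TT P L f N ∩ (u ∩ v) := ⟨⟨z, hz, hw⟩, h3 w hw, h4 w hw⟩
    rw [hdis] at h5
    exact h5.elim
  rcases isPreconnected_iff_subset_of_disjoint.1 hN _ _ hO1 hO2 hcov hdisj with h | h
  · left
    rintro w ⟨z, hz, hw⟩
    obtain ⟨a, ha, ha2⟩ := mem_iUnion₂.1 (h hz)
    exact hWA3 a ha.1 ha.2 ⟨ha2, hNU hz⟩ w hw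
  · right
    rintro w ⟨z, hz, hw⟩
    obtain ⟨a, ha, ha2⟩ := mem_iUnion₂.1 (h hz)
    exact hWB3 a ha.1 ha.2 ⟨ha2, hNU hz⟩ w hw

end Vale.Agent.P116.PBC
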