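import Mathlib
import Vale.Agent.P116.Defs
import Vale.Agent.P116.PBC.Sph
import Vale.Agent.P116.FK.Top

/-!
Domains of the sphere containing infinity and compact sets of the plane.
-/

open Set Filter Topology Metric Bornology OnePoint

namespace Vale.Agent.P116.PBC

/-- the part of the complement of `G` in the plane -/
def pl (G : Set (OnePoint ℂ)) : Set ℂ := {z : ℂ | (z : OnePoint ℂ) ∉ G}

lemma isCompact_pl {G : Set (OnePoint ℂ)} (hG : IsOpen G) (hi : ∞ ∈ G) : IsCompact (pl G) := by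
  have h1 := (OnePoint.isOpen_def.1 hG).1 hi
  have h2 : pl G = ((fun z : ℂ => (z : OnePoint ℂ)) ⁻¹' G)ᶜ := rfl
  rw [h2]
  exact h1

lemma eq_compl_pl {G : Set (OnePoint ℂ)} (hi : ∞ ∈ G) :
    G = ((fun z : ℂ => (z : OnePoint ℂ)) '' pl G)ᶜ := by
  ext p
  induction p using OnePoint.rec with
  | infty => simp [hi]
  | coe z =>
    constructor
    · rintro h ⟨w, hw, hwz⟩
      have : w = z := OnePoint.coe_injective hwz
      exact hw (this ▸ h)
    · intro h
      by_contra h2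
      exact h ⟨z, h2, rfl⟩

lemma preconn_compl_pl {G : Set (OnePoint ℂ)} (hG : IsOpen G) (hc : IsConnected G) (hi : ∞ ∈ G) :
    IsPreconnected (pl G)ᶜ := by
  have hK := isCompact_pl hG hi
  obtain ⟨b, hb⟩ := hK.isBounded.exists_norm_le
  have hfarc : IsPreconnected {z : ℂ | max b 0 < ‖z‖} :=
    (FK.isConnected_far (le_max_right b 0)).isPreconnected
  have hfarU : {z : ℂ | max b 0 < ‖z‖} ⊆ (pl G)ᶜ := by
    intro z hz hzK
    exact absurd (hb z hzK) (not_le.2 ((le_max_left b 0).trans_lt hz))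
  -- main separation
  have key : ∀ A B : Set ℂ, IsOpen A → IsOpen B → (pl G)ᶜ ⊆ A ∪ B →
      (pl G)ᶜ ∩ (A ∩ B) = ∅ → {z : ℂ | max b 0 < ‖z‖} ⊆ A → ((pl G)ᶜ ∩ B).Nonempty → False := by
    intro A B hA hB hcov hdis hfar hBne
    set A' : Set (OnePoint ℂ) := ((fun z : ℂ => (z : OnePoint ℂ)) '' ((pl G)ᶜ ∩ A)) ∪ {∞} with hA'
    set B' : Set (OnePoint ℂ) := (fun z : ℂ => (z : OnePoint ℂ)) '' ((pl G)ᶜ ∩ B) with hB'
    have hUo : IsOpen (pl G)ᶜ := hK.isClosed.isOpen_compl
    have hB'o : IsOpen B' := OnePoint.isOpenEmbedding_coe.isOpenMap _ (hUo.inter hB)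
    have hpre : (fun z : ℂ => (z : OnePoint ℂ)) ⁻¹' A' = (pl G)ᶜ ∩ A := by
      ext z
      constructor
      · rintro (⟨w, hw, hwz⟩ | h)
        · have : w = z := OnePoint.coe_injective hwz
          exact this ▸ hw
        · exact absurd h (OnePoint.coe_ne_infty z)
      · intro h
        exact Or.inl ⟨z, h, rfl⟩
    have hA'o : IsOpen A' := by
      rw [OnePoint.isOpen_def]
      refine ⟨fun _ => ?_, ?_⟩
      · rw [hpre]
        refine (isCompact_closedBall (0 : ℂ) (max b 0)).of_isClosed_subset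
          (hUo.inter hA).isClosed_compl ?_
        intro z hz
        by_contra h2
        rw [mem_closedBall_zero_iff, not_le] at h2
        exact hz ⟨hfarU h2, hfar h2⟩
      · rw [hpre]
        exact hUo.inter hA
    have hcov' : G ⊆ A' ∪ B' := by
      intro p hp
      induction p using OnePoint.rec with
      | infty => exact Or.inl (Or.inr rfl)
      | coe z =>
        have hz : z ∈ (pl G)ᶜ := fun h => h hp
        rcases hcov hz with h | h
        · exact Or.inl (Or.inl ⟨z, ⟨hz, h⟩, rfl⟩)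
        · exact Or.inr ⟨z, ⟨hz, h⟩, rfl⟩
    have hsub : ∀ z ∈ (pl G)ᶜ, (z : OnePoint ℂ) ∈ G := by
      intro z hz
      by_contra h
      exact hz h
    obtain ⟨w, hwU, hwB⟩ := hBne
    obtain ⟨p, hpG, hpA, hpB⟩ := hc.isPreconnected A' B' hA'o hB'o hcov' ⟨∞, hi, Or.inr rfl⟩
      ⟨(w : OnePoint ℂ), hsub w hwU, ⟨w, ⟨hwU, hwB⟩, rfl⟩⟩
    obtain ⟨z, ⟨hzU, hzB⟩, rfl⟩ := hpB
    have hzA : z ∈ (pl G)ᶜ ∩ A := by
      rw [← hpre]
      exact hpA
    have : z ∈ (pl G)ᶜ ∩ (A ∩ B) := ⟨hzU, hzA.2, hzB⟩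
    rw [hdis] at this
    exact this
  intro A B hA hB hcov hAne hBne
  by_contra hne
  rw [Set.not_nonempty_iff_eq_empty] at hne
  have hUo : IsOpen (pl G)ᶜ := hK.isClosed.isOpen_compl
  have hsplit := hfarc.subset_or_subset (hUo.inter hA) (hUo.inter hB) (by
    rw [disjoint_left]
    rintro z ⟨hz, hzA⟩ ⟨-, hzB⟩
    have : z ∈ (pl G)ᶜ ∩ (A ∩ B) := ⟨hz, hzA, hzB⟩
    rw [hne] at this
    exact this) (fun z hz => by
      rcases hcov (hfarU hz) with h | h
      · exact Or.inl ⟨hfarU hz, h⟩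
      · exact Or.inr ⟨hfarU hz, h⟩)
  rcases hsplit with h | h
  · exact key A B hA hB hcov hne (h.trans inter_subset_right) hBne
  · exact key B A hB hA (by rwa [union_comm]) (by rwa [inter_comm B A]) (h.trans inter_subset_right)
      hAne

end Vale.Agent.P116.PBC
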