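import Mathlib
import Vale.Agent.P116.Defs
import Vale.Agent.P116.PBC.Top
import Vale.Agent.P116.H906.Sel

/-!
Families of complementary components on the sphere and in the plane.
-/

open Set Filter Topology Metric Bornology OnePoint

namespace Vale.Agent.P116.PBC

/-- the planar trace of a family of sets of the sphere -/
def tr (E : Set (Set (OnePoint ℂ))) : Set ℂ := {z : ℂ | (z : OnePoint ℂ) ∈ ⋃₀ E}

variable {G : Set (OnePoint ℂ)} {E : Set (Set (OnePoint ℂ))}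

lemma comp_coe (hi : ∞ ∈ G) {y : ℂ} (hy : y ∈ pl G) :
    comp G (y : OnePoint ℂ) = (fun z : ℂ => (z : OnePoint ℂ)) '' connectedComponentIn (pl G) y := by
  have h2 := connectedComponentIn_coe (L := pl G) hy
  rw [comp]
  conv_lhs => rw [eq_compl_pl hi, compl_compl]
  exact h2

lemma tr_sub (hE : ∀ Q ∈ E, ∃ p ∈ Gᶜ, Q = comp G p) : tr E ⊆ pl G := by
  rintro z ⟨Q, hQ, hzQ⟩
  obtain ⟨p, hp, rfl⟩ := hE Q hQ
  have h1 : (z : OnePoint ℂ) ∈ Gᶜ := connectedComponentIn_subset Gᶜ p hzQ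
  exact h1

lemma comp_mem (hE : ∀ Q ∈ E, ∃ p ∈ Gᶜ, Q = comp G p) {z : ℂ} (hz : z ∈ tr E) :
    comp G (z : OnePoint ℂ) ∈ E := by
  obtain ⟨Q, hQ, hzQ⟩ := hz
  obtain ⟨p, hp, rfl⟩ := hE Q hQ
  have : comp G (z : OnePoint ℂ) = comp G p := (connectedComponentIn_eq hzQ).symm
  rw [this]
  exact hQ

lemma tr_sat (hi : ∞ ∈ G) (hE : ∀ Q ∈ E, ∃ p ∈ Gᶜ, Q = comp G p) :
    ∀ x ∈ tr E, connectedComponentIn (pl G) x ⊆ tr E := by
  intro x hx w hw
  refine ⟨comp G (x : OnePoint ℂ), comp_mem hE hx, ?_⟩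
  rw [comp_coe hi (tr_sub hE hx)]
  exact ⟨w, hw, rfl⟩

lemma tr_count (hi : ∞ ∈ G) (hE : ∀ Q ∈ E, ∃ p ∈ Gᶜ, Q = comp G p) (hc : E.Countable) :
    (connectedComponentIn (pl G) '' tr E).Countable := by
  have hinj : Function.Injective (fun P : Set ℂ => (fun z : ℂ => (z : OnePoint ℂ)) '' P) :=
    OnePoint.coe_injective.image_injective
  refine MapsTo.countable_of_injOn
    (f := fun P : Set ℂ => (fun z : ℂ => (z : OnePoint ℂ)) '' P) ?_ hinj.injOn hc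
  rintro _ ⟨x, hx, rfl⟩
  change (fun z : ℂ => (z : OnePoint ℂ)) '' connectedComponentIn (pl G) x ∈ E
  rw [← comp_coe hi (tr_sub hE hx)]
  exact comp_mem hE hx

end Vale.Agent.P116.PBC
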